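import Vale.Agent.P327.Borel

/-!
# The anchor: an exact translation identity for a local representative of an automorphism
-/

namespace Vale.Agent.P327

open Filter Set Topology

lemma exists_gives_of_le {A B : Cantor} (h : deg A ≤ deg B) : ∃ Φ : Func, Φ.Gives B A :=
  Red.exists_func h

lemma map_deg_J (π : SetDegree ≃o SetDegree) {A B A' B' : Cantor} (hA : deg A' = π (deg A))
    (hB : deg B' = π (deg B)) : deg (J A' B') = π (deg (J A B)) := by
  refine le_antisymm (deg_J_le_iff.2 ⟨hA ▸ π.monotone (deg_left_le A B),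
    hB ▸ π.monotone (deg_right_le A B)⟩) ?_
  rw [← π.le_symm_apply]
  exact deg_J_le_iff.2 ⟨π.le_symm_apply.2 (hA ▸ deg_left_le A' B'),
    π.le_symm_apply.2 (hB ▸ deg_right_le A' B')⟩

/-! ### Translations and finite shifts -/

/-- Translation by `D`. -/
def xrHomeo (D : Cantor) : Cantor ≃ₜ Cantor where
  toFun X := xr X D
  invFun X := xr X D
  left_inv X := xr_cancel_right X D
  right_inv X := xr_cancel_right X D
  continuous_toFun := continuous_xr.comp (by fun_prop : Continuous fun X : Cantor => (X, D))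
  continuous_invFun := continuous_xr.comp (by fun_prop : Continuous fun X : Cantor => (X, D))

lemma eventually_xr (D : Cantor) {p : Cantor → Prop} (hp : ∀ᶠ X in residual Cantor, p X) :
    ∀ᶠ X in residual Cantor, p (xr X D) :=
  (tendsto_residual_of_isOpenMap (xrHomeo D).continuous (xrHomeo D).isOpenMap).eventually hp

lemma eventually_xr' (D : Cantor) {p : Cantor → Prop} (hp : ∀ᶠ X in residual Cantor, p X) :
    ∀ᶠ X in residual Cantor, p (xr D X) :=
  (eventually_xr D hp).mono fun X hX => by rwa [xr_comm]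

lemma drop_catS (s : List Bool) (Z : Cantor) : drop s.length (catS s Z) = Z := by
  funext n; simp [drop, catS, List.getD]

lemma catS_drop {x A : Cantor} {M : ℕ} (h : x ∈ cy A M) : catS (pre A M) (drop M x) = x := by
  funext n
  by_cases hn : n < M
  · simp [catS, List.getD, pre, hn, h n hn]
  · simp [catS, List.getD, hn, drop]
    congr 1
    omega

lemma catS_mem_cy (A Z : Cantor) (M : ℕ) : catS (pre A M) Z ∈ cy A M := fun n hn => by
  simp [catS, List.getD, pre, hn]

lemma deg_catS (s : List Bool) (Z : Cantor) : deg (catS s Z) = deg Z :=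
  le_antisymm (Func.red_of_gives (Func.gives_cat s Z))
    (by conv_lhs => rw [← drop_catS s Z]
        exact deg_drop_le _ _)

lemma isOpenMap_catS (A : Cantor) (M : ℕ) : IsOpenMap (catS (pre A M)) := by
  intro V hV
  have : catS (pre A M) '' V = cy A M ∩ drop M ⁻¹' V := by
    ext x
    constructor
    · rintro ⟨Z, hZ, rfl⟩
      refine ⟨catS_mem_cy A Z M, ?_⟩
      have := drop_catS (pre A M) Z
      rw [length_pre] at this
      rwa [mem_preimage, this]
    · exact fun ⟨hx, hxV⟩ => ⟨drop M x, hxV, catS_drop hx⟩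
  rw [this]
  exact (isOpen_cy A M).inter (hV.preimage (continuous_drop M))

lemma isOpenMap_drop (M : ℕ) : IsOpenMap (drop M) := by
  intro O hO
  have : drop M '' O = ⋃ x : Cantor, catS (pre x M) ⁻¹' O := by
    ext z
    simp only [mem_image, mem_iUnion, mem_preimage]
    constructor
    · rintro ⟨x, hx, rfl⟩
      exact ⟨x, by rwa [catS_drop (mem_cy_self x M)]⟩
    · rintro ⟨x, hx⟩
      have := drop_catS (pre x M) z
      rw [length_pre] at this
      exact ⟨_, hx, this⟩
  rw [this]
  exact isOpen_iUnion fun x => hO.preimage (continuous_catS _)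

lemma eventually_catS (A : Cantor) (M : ℕ) {p : Cantor → Prop}
    (hp : ∀ᶠ X in residual Cantor, X ∈ cy A M → p X) :
    ∀ᶠ X in residual Cantor, p (catS (pre A M) X) :=
  ((tendsto_residual_of_isOpenMap (continuous_catS _) (isOpenMap_catS A M)).eventually hp).mono
    fun X hX => hX (catS_mem_cy A X M)

lemma EN.catS_preimage {E : Set Cantor} {A : Cantor} {M : ℕ} (h : EN E (cy A M)) :
    EN (catS (pre A M) ⁻¹' E) univ := by
  intro V hV _ hne hm
  refine h (cy A M ∩ drop M ⁻¹' V) ((isOpen_cy A M).inter (hV.preimage (continuous_drop M)))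
    inter_subset_left ?_ ?_
  · obtain ⟨v, hv⟩ := hne
    refine ⟨catS (pre A M) v, catS_mem_cy A v M, ?_⟩
    have := drop_catS (pre A M) v
    rw [length_pre] at this
    rwa [mem_preimage, this]
  · refine (hm.preimage_of_isOpenMap (continuous_drop M) (isOpenMap_drop M)).mono ?_
    rintro x ⟨hxE, hxA, hxV⟩
    refine ⟨?_, hxV⟩
    rwa [mem_preimage, catS_drop hxA]

lemma catS_xr_xr {s t : List Bool} (h : s.length = t.length) (X Z₁ Z₂ : Cantor) :
    catS s (xr X (xr Z₁ Z₂)) = xr (catS s X) (xr (catS t Z₁) (catS t Z₂)) := by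
  funext n
  by_cases hn : n < s.length
  · simp [catS, xr, List.getD, List.getElem?_eq_getElem hn, List.getElem?_eq_getElem (h ▸ hn)]
  · simp [catS, xr, List.getD, List.getElem?_eq_none (not_lt.1 hn),
      List.getElem?_eq_none (h ▸ not_lt.1 hn), h]

/-- The data produced by the anchor step, with parameters of degree at most `deg K`. -/
structure Anchor (π : SetDegree ≃o SetDegree) (K : Cantor) where
  f : Cantor → Cantor
  h : Cantor → Cantor
  measurable_f : Measurable f
  inv : ∀ᶠ X in residual Cantor, h (f X) = X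
  E : Set Cantor
  en_E : EN E univ
  valid : ∀ Z ∈ E, deg (f Z) = π (deg Z)
  P : Set Cantor
  en_P : EN P univ
  Φ : Func
  Q : Cantor → Cantor → Cantor
  measurable_Q : ∀ Z, Measurable (Q Z)
  deg_Q : ∀ Z₁ ∈ P, ∀ Z₂ ∈ P, ∀ c, deg K ≤ c → deg Z₁ ≤ c → deg Z₂ ≤ c → deg (Q Z₁ Z₂) ≤ π c
  ident : ∀ Z₁ ∈ P, ∀ Z₂ ∈ P,
    ∀ᶠ X in residual Cantor, Φ.Gives (J (f X) (Q Z₁ Z₂)) (f (xr X (xr Z₁ Z₂)))

lemma exists_anchor (π : SetDegree ≃o SetDegree) {F G : Func → Cantor → Cantor}
    (hFm : ∀ i, Measurable (F i)) (hF : ∀ X Y, deg Y = π (deg X) → ∃ i, F i X = Y)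
    (hGm : ∀ i, Measurable (G i)) (hG : ∀ X Y, deg Y = π.symm (deg X) → ∃ i, G i X = Y)
    {Y₀ B₀ : Cantor} (hB₀ : ¬ Red Y₀ B₀) :
    ∃ B, deg B₀ ≤ deg B ∧ ¬ Red Y₀ B ∧ Nonempty (Anchor π B) := by
  have hclass : ∀ X, ∃ ij : Func × Func,
      deg (F ij.1 X) = π (deg X) ∧ G ij.2 (F ij.1 X) = X := by
    intro X
    obtain ⟨i, hi⟩ := hF X (rep (π (deg X))) (deg_rep _)
    obtain ⟨j, hj⟩ := hG (F i X) X (by rw [hi, deg_rep, π.symm_apply_apply])
    exact ⟨(i, j), by rw [hi, deg_rep], hj⟩
  obtain ⟨⟨i₀, j₀⟩, hne⟩ := exists_not_isMeagre (E := (univ : Set Cantor))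
    (not_isMeagre_of_isOpen isOpen_univ univ_nonempty)
    (S := fun ij : Func × Func => {X | deg (F ij.1 X) = π (deg X) ∧ G ij.2 (F ij.1 X) = X})
    (Eventually.of_forall fun X _ => hclass X)
  obtain ⟨a, L₀, hEN₀⟩ := exists_EN hne
  set E₀ : Set Cantor := {X | deg (F i₀ X) = π (deg X) ∧ G j₀ (F i₀ X) = X}
  have hinv : ∀ᶠ X in residual Cantor, X ∈ cy a L₀ → G j₀ (F i₀ X) = X :=
    hEN₀.eventually_mem (isOpen_cy a L₀) (P := {X | G j₀ (F i₀ X) = X})
      (measurableSet_eq_fun ((hGm j₀).comp (hFm i₀)) measurable_id)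
      (Eventually.of_forall fun X hX => hX.2)
  let R : Func × Func × Func → Set (Cantor × Cantor) := fun p => {q |
    p.2.1.Gives (J (F i₀ q.1) (F p.1 q.2)) (F i₀ (xr q.1 q.2)) ∧
    p.2.2.Gives (J (F i₀ (xr q.1 q.2)) (F p.1 q.2)) (F i₀ q.1)}
  have hR : ∀ p, MeasurableSet (R p) := fun p => by
    have h1 : Measurable fun q : Cantor × Cantor => F i₀ q.1 := (hFm i₀).comp measurable_fst
    have h2 : Measurable fun q : Cantor × Cantor => F p.1 q.2 := (hFm _).comp measurable_snd
    have h3 : Measurable fun q : Cantor × Cantor => F i₀ (xr q.1 q.2) :=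
      (hFm i₀).comp (Measurable.xr measurable_fst measurable_snd)
    exact (measurableSet_gives _ (Measurable.J h1 h2) h3).inter
      (measurableSet_gives _ (Measurable.J h3 h2) h1)
  obtain ⟨A, ⟨hAE, hAa⟩, hAgood, hAav⟩ := hEN₀.exists
    ((eventually_countable_forall.2 fun p => slice_of_mem (hR p)).and (eventually_not_red hB₀))
    (isOpen_cy a L₀) Subset.rfl ⟨a, mem_cy_self a L₀⟩
  let S : (Func × Func × Func) × ℕ → Set Cantor := fun p => {Y | Y ∈ E₀ ∩ cy a L₀ ∧
    deg (F p.1.1 (xr A Y)) = π (deg (xr A Y)) ∧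
    ∀ᶠ A' in residual Cantor, A' ∈ cy A p.2 → (A', xr A Y) ∈ R p.1}
  obtain ⟨⟨⟨i, e, e'⟩, L⟩, hSne⟩ := exists_not_isMeagre
    (hEN₀ _ (isOpen_cy a L₀) Subset.rfl ⟨a, mem_cy_self a L₀⟩) (S := S) (by
      filter_upwards [eventually_countable_forall.2 fun p => eventually_xr' A (hAgood p)]
        with Y hY hYE
      obtain ⟨i, hi⟩ := hF (xr A Y) (rep (π (deg (xr A Y)))) (deg_rep _)
      have hV : deg (F i (xr A Y)) = π (deg (xr A Y)) := by rw [hi, deg_rep]
      obtain ⟨e, he⟩ := exists_gives_of_le (A := F i₀ Y) (B := J (F i₀ A) (F i (xr A Y))) (by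
        rw [map_deg_J π hAE.1 hV, hYE.1.1]
        refine π.monotone ?_
        conv_lhs => rw [← xr_cancel_left A Y]
        exact deg_xr_le (deg_left_le _ _) (deg_right_le _ _))
      obtain ⟨e', he'⟩ := exists_gives_of_le (A := F i₀ A) (B := J (F i₀ Y) (F i (xr A Y))) (by
        rw [map_deg_J π hYE.1.1 hV, hAE.1]
        refine π.monotone ?_
        conv_lhs => rw [← xr_cancel_right A Y]
        exact deg_xr_le (deg_right_le _ _) (deg_left_le _ _))
      obtain ⟨L, hL⟩ := hY (i, e, e') (by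
        show _ ∧ _
        rw [xr_cancel_left]
        exact ⟨he, he'⟩)
      exact ⟨((i, e, e'), L), hYE, hV, hL⟩)
  obtain ⟨c, L', hENS⟩ := exists_EN hSne
  obtain ⟨M, hLM, hL₀M, hL'M⟩ : ∃ M, L ≤ M ∧ L₀ ≤ M ∧ L' ≤ M :=
    ⟨max L (max L₀ L'), by omega, by omega, by omega⟩
  have hcyA : cy A M ⊆ cy a L₀ := (cy_anti A hL₀M).trans (cy_eq_of_mem hAa).subset
  refine ⟨J B₀ A, deg_left_le _ _, hAav, ⟨?_⟩⟩
  exact
    { f := fun Z => F i₀ (catS (pre A M) Z)
      h := fun W => drop M (G j₀ W)
      measurable_f := (hFm i₀).comp (continuous_catS _).measurable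
      inv := by
        refine (eventually_catS A M (hinv.mono fun X hX hXA => hX (hcyA hXA))).mono fun X hX => ?_
        rw [hX]
        simpa using drop_catS (pre A M) X
      E := catS (pre A M) ⁻¹' E₀
      en_E := (hEN₀.mono Subset.rfl hcyA).catS_preimage
      valid := fun Z hZ => by rw [hZ.1, deg_catS]
      P := catS (pre c M) ⁻¹' S ((i, e, e'), L)
      en_P := (hENS.mono Subset.rfl (cy_anti c hL'M)).catS_preimage
      Φ := (((Func.left.pair (Func.right.then Func.left)).then e).pair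
        (Func.right.then Func.right)).then e'
      Q := fun Z₁ Z₂ => J (F i (xr A (catS (pre c M) Z₁))) (F i (xr A (catS (pre c M) Z₂)))
      measurable_Q := fun Z => Measurable.J measurable_const
        ((hFm i).comp (Measurable.xr measurable_const (continuous_catS _).measurable))
      deg_Q := fun Z₁ h₁ Z₂ h₂ c' hc hc₁ hc₂ => by
        have hA' : deg A ≤ c' := (deg_right_le _ _).trans hc
        rw [deg_J_le_iff, h₁.2.1, h₂.2.1]
        exact ⟨π.monotone (deg_xr_le hA' (by rwa [deg_catS])),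
          π.monotone (deg_xr_le hA' (by rwa [deg_catS]))⟩
      ident := fun Z₁ h₁ Z₂ h₂ => by
        have e1 := eventually_catS A M (h₁.2.2.mono fun X hX hXA => hX (cy_anti A hLM hXA))
        have e2 := eventually_catS A M (h₂.2.2.mono fun X hX hXA => hX (cy_anti A hLM hXA))
        filter_upwards [e1, eventually_xr (xr Z₁ Z₂) e2] with X hX₁ hX₂
        have heq := catS_xr_xr (s := pre A M) (t := pre c M) (by simp) X Z₁ Z₂
        set A' := catS (pre A M) X
        set A'' := catS (pre A M) (xr X (xr Z₁ Z₂))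
        set V₁ := xr A (catS (pre c M) Z₁) with hV₁
        set V₂ := xr A (catS (pre c M) Z₂) with hV₂
        have hsum : xr A'' V₂ = xr A' V₁ := by
          rw [heq, hV₁, hV₂]
          funext n
          simp only [xr]
          generalize A' n = p, A n = q, catS (pre c M) Z₁ n = r, catS (pre c M) Z₂ n = u
          cases p <;> cases q <;> cases r <;> cases u <;> rfl
        have g1 : e.Gives (J (F i₀ A') (F i V₁)) (F i₀ (xr A' V₁)) := hX₁.1
        have g2 : e'.Gives (J (F i₀ (xr A'' V₂)) (F i V₂)) (F i₀ A'') := hX₂.2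
        rw [hsum] at g2
        exact Func.gives_then (Func.gives_pair (Func.gives_then (Func.gives_pair
          (Func.gives_left _ _) (Func.gives_then (Func.gives_right _ _) (Func.gives_left _ _))) g1)
          (Func.gives_then (Func.gives_right _ _) (Func.gives_right _ _))) g2 }

end Vale.Agent.P327
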