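import Vale.Agent.P327.Series

/-!
# Borel sets defined by functionals; avoiding a cone
-/

namespace Vale.Agent.P327

open Filter Set Topology

lemma continuous_J : Continuous fun p : Cantor × Cantor => J p.1 p.2 := by
  refine continuous_pi fun n => ?_
  simp only [J]
  cases n.bodd
  · exact (continuous_apply _).comp continuous_fst
  · exact (continuous_apply _).comp continuous_snd

lemma continuous_xr : Continuous fun p : Cantor × Cantor => xr p.1 p.2 := by
  refine continuous_pi fun n => ?_
  have hb : Continuous fun q : Bool × Bool => Bool.xor q.1 q.2 := continuous_of_discreteTopology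
  exact hb.comp ((((continuous_apply n).comp continuous_fst).prodMk
    ((continuous_apply n).comp continuous_snd) : Continuous fun q : Cantor × Cantor => (q.1 n, q.2 n)))

lemma continuous_catS (s : List Bool) : Continuous (catS s) := by
  refine continuous_pi fun n => ?_
  by_cases h : n < s.length
  · simp only [catS, List.getD, List.getElem?_eq_getElem h, Option.getD_some]
    exact continuous_const
  · simp only [catS, List.getD, List.getElem?_eq_none (not_lt.1 h), Option.getD_none]
    exact continuous_apply _

lemma continuous_sh : Continuous sh := continuous_pi fun n => continuous_apply (n + 1)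

lemma continuous_drop (k : ℕ) : Continuous (drop k) := continuous_pi fun n => continuous_apply _

section

variable {α : Type*} [MeasurableSpace α]

lemma Measurable.J {a b : α → Cantor} (ha : Measurable a) (hb : Measurable b) :
    Measurable fun x => J (a x) (b x) :=
  continuous_J.measurable.comp (ha.prodMk hb)

lemma Measurable.xr {a b : α → Cantor} (ha : Measurable a) (hb : Measurable b) :
    Measurable fun x => xr (a x) (b x) :=
  continuous_xr.measurable.comp (ha.prodMk hb)

lemma measurableSet_pre {a : α → Cantor} (ha : Measurable a) (L : ℕ) (s : List Bool) :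
    MeasurableSet {x | pre (a x) L = s} := by
  by_cases hs : s.length = L
  · have : {x | pre (a x) L = s} = a ⁻¹' cyl s := by
      ext x
      simp only [mem_preimage, cyl, mem_cy_iff_pre, Set.mem_ofPred_eq]
      rw [pre_catS, hs]
    rw [this]
    exact ha (isOpen_cy _ _).measurableSet
  · have : {x | pre (a x) L = s} = ∅ :=
      eq_empty_of_forall_notMem fun x hx => hs (by rw [← hx, length_pre])
    rw [this]; exact MeasurableSet.empty

lemma measurableSet_gives (Φ : Func) {a b : α → Cantor} (ha : Measurable a) (hb : Measurable b) :
    MeasurableSet {x | Φ.Gives (a x) (b x)} := by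
  have : {x | Φ.Gives (a x) (b x)} = ⋂ n, ⋃ L, ⋃ s : List Bool, ⋃ v : Bool,
      ⋃ (_ : Φ.h s n = some v), {x | pre (a x) L = s} ∩ {x | b x n = v} := by
    ext x
    simp only [Func.Gives, Set.mem_ofPred_eq, mem_iInter, mem_iUnion, mem_inter_iff]
    exact forall_congr' fun n => exists_congr fun L =>
      ⟨fun h => ⟨_, _, h, rfl, rfl⟩, by rintro ⟨s, v, h, rfl, rfl⟩; exact h⟩
  rw [this]
  refine MeasurableSet.iInter fun n => MeasurableSet.iUnion fun L => MeasurableSet.iUnion fun s =>
    MeasurableSet.iUnion fun v => MeasurableSet.iUnion fun _ => ?_
  exact (measurableSet_pre ha L s).inter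
    (((measurable_pi_apply n).comp hb) (MeasurableSet.singleton v))

lemma measurableSet_red {a b : α → Cantor} (ha : Measurable a) (hb : Measurable b) :
    MeasurableSet {x | Red (a x) (b x)} := by
  have : {x | Red (a x) (b x)} = ⋃ Φ : Func, {x | Φ.Gives (b x) (a x)} := by
    ext x; simp [red_iff]
  rw [this]
  exact MeasurableSet.iUnion fun Φ => measurableSet_gives Φ hb ha

end

/-- Interleave two finite sequences, up to the length of the shorter. -/
def ileave (σ τ : List Bool) : List Bool :=
  (List.range (2 * min σ.length τ.length)).map fun i =>
    cond i.bodd (τ.getD i.div2 false) (σ.getD i.div2 false)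

lemma ileave_pre (A B : Cantor) (L M : ℕ) :
    ileave (pre A L) (pre B M) = pre (J A B) (2 * min L M) := by
  simp only [ileave, length_pre]
  rw [pre.eq_def (J A B)]
  refine List.map_congr_left fun i hi => ?_
  rw [List.mem_range] at hi
  have h2 : i.div2 < min L M := by rw [Nat.div2_val]; omega
  cases h : i.bodd <;>
    simp [J, h, pre, show i.div2 < L by omega, show i.div2 < M by omega]

lemma computable_ileave : Computable₂ ileave := by
  have hs : Primrec fun y : (List Bool × List Bool) × ℕ => y.2.div2 :=
    Primrec.nat_div2.comp Primrec.snd
  exact (Primrec.list_map (Primrec.list_range.comp (Primrec.nat_mul.comp (Primrec.const 2)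
    (Primrec.nat_min.comp (Primrec.list_length.comp Primrec.fst)
      (Primrec.list_length.comp Primrec.snd))))
    (Primrec.cond (Primrec.nat_bodd.comp Primrec.snd)
      ((Primrec.list_getD false).comp (Primrec.snd.comp Primrec.fst) hs)
      ((Primrec.list_getD false).comp (Primrec.fst.comp Primrec.fst) hs)).to₂).to_comp

/-- Joining a generic real preserves avoidance of an upper cone. -/
lemma eventually_not_red {Y B : Cantor} (h : ¬ Red Y B) :
    ∀ᶠ p in residual Cantor, ¬ Red Y (J B p) := by
  have key : ∀ Φ : Func, IsMeagre {p | Φ.Gives (J B p) Y} := by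
    intro Φ
    by_contra hne
    obtain ⟨x, K, hK⟩ := exists_cy_of_measurable
      (measurableSet_gives Φ (Measurable.J measurable_const measurable_id) measurable_const) hne
    refine h ?_
    let dec : ℕ → List Bool := fun c => (Encodable.decode (α := List Bool) c).getD []
    let g : List Bool → ℕ → Option Bool := fun σ n =>
      cond (decide ((dec σ.length.unpair.1).take K = pre x K))
        (Φ.h (ileave σ (dec σ.length.unpair.1)) n) none
    have hg : Computable₂ g := by
      have hd : Computable fun q : List Bool × ℕ => dec q.1.length.unpair.1 :=
        Computable.option_getD (Computable.decode.comp (Computable.fst.comp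
          (Computable.unpair.comp (Computable.list_length.comp Computable.fst))))
          (Computable.const [])
      exact (Computable.cond ((Primrec.eq (α := List Bool)).decide.to_comp.comp
        (Primrec.list_take.to_comp.comp (Computable.const K) hd) (Computable.const (pre x K)))
        (Φ.comp.comp (computable_ileave.comp Computable.fst hd) Computable.snd)
        (Computable.const none)).to₂
    refine Func.red_of_gives (Φ := Func.ofSearch g hg) (Func.gives_ofSearch ?_ ?_)
    · intro n L v hv
      simp only [g, length_pre] at hv
      generalize dec L.unpair.1 = t at hv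
      by_cases ht : t.take K = pre x K
      · rw [decide_eq_true ht, Bool.cond_true] at hv
        have hlen : K ≤ t.length := by
          have := congrArg List.length ht; simp at this; omega
        obtain ⟨p, hp, hgood⟩ := exists_mem_of_not_isMeagre
          (not_isMeagre_of_isOpen (isOpen_cy (catS t zer) t.length) ⟨_, mem_cy_self _ _⟩) hK
        have htp : pre p t.length = t := by rw [mem_cy_iff_pre.1 hp, pre_catS]
        have hpK : p ∈ cy x K := by
          rw [mem_cy_iff_pre, ← ht]
          conv_rhs => rw [← htp]
          rw [pre_take, Nat.min_eq_left hlen]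
        obtain ⟨M, hM⟩ := hgood hpK n
        replace hM : Φ.h (pre (J B p) M) n = some (Y n) := hM
        rw [← htp, ileave_pre] at hv
        have h1 := Φ.mono (pre_prefix _ (le_max_left (2 * min L t.length) M)) hv
        rw [Φ.mono (pre_prefix _ (le_max_right (2 * min L t.length) M)) hM] at h1
        exact (Option.some.inj h1).symm
      · rw [decide_eq_false ht] at hv; simp at hv
    · intro n
      obtain ⟨p, hp, hgood⟩ := exists_mem_of_not_isMeagre
        (not_isMeagre_of_isOpen (isOpen_cy x K) ⟨_, mem_cy_self _ _⟩) hK
      obtain ⟨M, hM⟩ := hgood hp n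
      replace hM : Φ.h (pre (J B p) M) n = some (Y n) := hM
      refine ⟨Nat.pair (Encodable.encode (pre p (max M K))) (max M K), Y n, ?_⟩
      simp only [g, dec, length_pre, Nat.unpair_pair, Encodable.encodek, Option.getD_some]
      rw [pre_take, Nat.min_eq_left (le_max_right M K), mem_cy_iff_pre.1 hp, decide_eq_true rfl,
        Bool.cond_true, ileave_pre,
        Nat.min_eq_right (Nat.right_le_pair (Encodable.encode (pre p (max M K))) (max M K))]
      exact Φ.mono (pre_prefix _ (by have := le_max_left M K; omega)) hM
  have hall : ∀ Φ : Func, ∀ᶠ p in residual Cantor, ¬ Φ.Gives (J B p) Y := key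
  filter_upwards [eventually_countable_forall.2 hall] with p hp hred
  obtain ⟨Φ, hΦ⟩ := hred.exists_func
  exact hp Φ hΦ

end Vale.Agent.P327
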