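import Vale.Agent.P327.Borel

/-!
# A countable family of Borel maps containing a representation of an automorphism
-/

namespace Vale.Agent.P327

open Filter Set Topology

/-- The column `n` of `G`. -/
def col (n : ℕ) (G : Cantor) : Cantor := fun k => G (Nat.pair n k)

/-- `G` with column `n` erased. -/
def rest (n : ℕ) (G : Cantor) : Cantor := fun m => if m.unpair.1 = n then false else G m

lemma continuous_col (n : ℕ) : Continuous (col n) :=
  continuous_pi fun _ => continuous_apply _

lemma continuous_rest (n : ℕ) : Continuous (rest n) := by
  refine continuous_pi fun m => ?_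
  by_cases h : m.unpair.1 = n
  · simpa [rest, h] using continuous_const
  · simpa [rest, h] using continuous_apply m

/-- Flipping one bit. -/
def flipBit (p : ℕ) : Cantor ≃ₜ Cantor where
  toFun A := xr A (fun i => decide (i = p))
  invFun A := xr A (fun i => decide (i = p))
  left_inv A := xr_cancel_right _ _
  right_inv A := xr_cancel_right _ _
  continuous_toFun := continuous_xr.comp (continuous_id.prodMk continuous_const)
  continuous_invFun := continuous_xr.comp (continuous_id.prodMk continuous_const)

lemma flipBit_apply (p : ℕ) (A : Cantor) (i : ℕ) :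
    flipBit p A i = Bool.xor (A i) (decide (i = p)) := rfl

/-- There is a sequence of reals none of which is computable from the others. -/
lemma exists_indep : ∃ G : Cantor, ∀ n, ¬ Red (col n G) (rest n G) := by
  have key : ∀ (Φ : Func) (n : ℕ), IsMeagre {G | Φ.Gives (rest n G) (col n G)} := by
    intro Φ n
    by_contra hne
    obtain ⟨x, L, hL⟩ := exists_cy_of_measurable (measurableSet_gives Φ
      (continuous_rest n).measurable (continuous_col n).measurable) hne
    have hL' : ∀ᶠ y in residual Cantor, flipBit (Nat.pair n L) y ∈ cy x L →
        Φ.Gives (rest n (flipBit (Nat.pair n L) y)) (col n (flipBit (Nat.pair n L) y)) :=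
      (tendsto_residual_of_isOpenMap (flipBit (Nat.pair n L)).continuous
        (flipBit (Nat.pair n L)).isOpenMap).eventually hL
    obtain ⟨y, hy, h1, h2⟩ := exists_mem_of_not_isMeagre
      (not_isMeagre_of_isOpen (isOpen_cy x L) ⟨x, mem_cy_self x L⟩) (hL.and hL')
    have hy' : flipBit (Nat.pair n L) y ∈ cy x L := fun i hi => by
      have : i ≠ Nat.pair n L := by have := Nat.right_le_pair n L; omega
      simp [flipBit_apply, this, hy i hi]
    have hr : rest n (flipBit (Nat.pair n L) y) = rest n y := by
      funext m
      by_cases hm : m.unpair.1 = n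
      · simp [rest, hm]
      · have : m ≠ Nat.pair n L := fun e => hm (by rw [e, Nat.unpair_pair])
        simp [rest, hm, flipBit_apply, this]
    have h := congrFun (Func.gives_unique (hr ▸ h2 hy') (h1 hy)) L
    simp [col, flipBit_apply] at h
  have hall : ∀ q : Func × ℕ, ∀ᶠ G in residual Cantor, ¬ q.1.Gives (rest q.2 G) (col q.2 G) :=
    fun q => key q.1 q.2
  obtain ⟨G, -, hG⟩ := exists_mem_of_not_isMeagre (E := (univ : Set Cantor))
    (not_isMeagre_of_isOpen isOpen_univ univ_nonempty) (eventually_countable_forall.2 hall)
  refine ⟨G, fun n hred => ?_⟩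
  obtain ⟨Φ, hΦ⟩ := hred.exists_func
  exact hG (Φ, n) hΦ

/-! ### Coding a real below the columns it selects -/

/-- An enumeration of all functionals. -/
noncomputable def enum : ℕ → Func :=
  letI : Nonempty Func := ⟨Func.id⟩
  (exists_surjective_nat Func).choose

lemma enum_surj : Function.Surjective enum :=
  letI : Nonempty Func := ⟨Func.id⟩
  (exists_surjective_nat Func).choose_spec

/-- A position is fixed if it lies at or after `l` in a column selected by `c`. -/
def fixedPos (c : List Bool) (l i : ℕ) : Bool := decide (l ≤ i) && c.getD i.unpair.1 false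

/-- `t` with the fixed positions read off from `σ`. -/
def mrg (c : List Bool) (l : ℕ) (σ t : List Bool) : List Bool :=
  (List.range t.length).map fun i => cond (fixedPos c l i) (σ.getD i false) (t.getD i false)

/-- `t` extends `s` and agrees with `G` on the fixed positions. -/
def Compl (G : Cantor) (c s t : List Bool) : Prop :=
  t.take s.length = s ∧ mrg c s.length (pre G t.length) t = t

lemma mrg_eq_self {c : List Bool} {l : ℕ} {σ t : List Bool}
    (h : ∀ i < t.length, fixedPos c l i = true → σ.getD i false = t.getD i false) :
    mrg c l σ t = t := by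
  refine List.ext_getElem (by simp [mrg]) fun i h1 h2 => ?_
  have e : t.getD i false = t[i] := by simp [List.getD, h2]
  simp only [mrg, List.getElem_map, List.getElem_range]
  cases hf : fixedPos c l i
  · exact e
  · exact (h i h2 hf).trans e

lemma compl_self (G : Cantor) (c s : List Bool) : Compl G c s s :=
  ⟨List.take_length, mrg_eq_self fun i hi hf => by simp [fixedPos] at hf; omega⟩

lemma Compl.eq_of_fixed {G : Cantor} {c s t : List Bool} (h : Compl G c s t) {i : ℕ}
    (hi : i < t.length) (hf : fixedPos c s.length i = true) : t.getD i false = G i := by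
  conv_lhs => rw [← h.2]
  simp [mrg, List.getD, hi, hf, pre]

lemma Compl.length_le {G : Cantor} {c s t : List Bool} (h : Compl G c s t) :
    s.length ≤ t.length := by
  have := congrArg List.length h.1
  simp at this
  omega

/-- The functional `enum k.unpair.2` errs on some admissible extension of `s`. -/
def Errs (G : Cantor) (c : List Bool) (k : ℕ) (s : List Bool) : Prop :=
  ∃ t, Compl G c s t ∧ ∃ j v, (enum k.unpair.2).h t j = some v ∧ v ≠ col k.unpair.1 G j

open Classical in
/-- The extension chosen at stage `k`. -/
noncomputable def pick (G : Cantor) (ρ : List Bool) (k : ℕ) (s : List Bool) : List Bool :=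
  if h : ρ.getD k.unpair.1 false = false ∧ Errs G (ρ.take k) k s then h.2.choose else s

lemma pick_compl (G : Cantor) (ρ : List Bool) (k : ℕ) (s : List Bool) :
    Compl G (ρ.take k) s (pick G ρ k s) := by
  unfold pick
  split
  · rename_i h; exact h.2.choose_spec.1
  · exact compl_self _ _ _

/-- Stage `k`, knowing the first `k + 1` coded bits. -/
noncomputable def next (G : Cantor) (ρ : List Bool) (k : ℕ) (s : List Bool) : List Bool :=
  pick G ρ k s ++ [G (pick G ρ k s).length]

/-- The initial segment built from the coded bits in `ρ`. -/
noncomputable def build (G : Cantor) (ρ : List Bool) : ℕ → List Bool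
  | 0 => []
  | k + 1 => next G (ρ.take (k + 1)) k (build G ρ k)

/-- The initial segment built after `k` stages of coding `Y`. -/
noncomputable def stage (G Y : Cantor) (k : ℕ) : List Bool := build G (pre Y k) k

lemma build_pre (G Y : Cantor) {M : ℕ} : ∀ k ≤ M, build G (pre Y M) k = stage G Y k := by
  intro k
  induction k generalizing M with
  | zero => exact fun _ => rfl
  | succ k ih =>
    intro h
    rw [stage, build, build, ih (by omega), ih (by omega), pre_take, pre_take,
      Nat.min_eq_left h, min_self]

lemma stage_succ (G Y : Cantor) (k : ℕ) :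
    stage G Y (k + 1) = next G (pre Y (k + 1)) k (stage G Y k) := by
  rw [stage, build, build_pre G Y k (by omega), pre_take, min_self]

lemma pre_succ_take (Y : Cantor) (k : ℕ) : (pre Y (k + 1)).take k = pre Y k := by
  rw [pre_take, Nat.min_eq_left (by omega)]

lemma compl_pick (G Y : Cantor) (k : ℕ) :
    Compl G (pre Y k) (stage G Y k) (pick G (pre Y (k + 1)) k (stage G Y k)) := by
  simpa [pre_succ_take] using pick_compl G (pre Y (k + 1)) k (stage G Y k)

lemma pick_prefix_stage (G Y : Cantor) (k : ℕ) :
    pick G (pre Y (k + 1)) k (stage G Y k) <+: stage G Y (k + 1) := by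
  rw [stage_succ]; exact List.prefix_append _ _

lemma stage_prefix_succ (G Y : Cantor) (k : ℕ) : stage G Y k <+: stage G Y (k + 1) := by
  refine List.IsPrefix.trans ?_ (pick_prefix_stage G Y k)
  conv_lhs => rw [← (compl_pick G Y k).1]
  exact List.take_prefix _ _

lemma stage_prefix (G Y : Cantor) {k m : ℕ} (h : k ≤ m) : stage G Y k <+: stage G Y m := by
  induction m, h using Nat.le_induction with
  | base => exact List.prefix_rfl
  | succ m _ ih => exact ih.trans (stage_prefix_succ G Y m)

lemma le_length_stage (G Y : Cantor) : ∀ k, k ≤ (stage G Y k).length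
  | 0 => Nat.zero_le _
  | k + 1 => by
    have h1 := le_length_stage G Y k
    have h2 := (compl_pick G Y k).length_le
    rw [stage_succ, next, List.length_append, List.length_singleton]
    omega

lemma getD_of_prefix {s t : List Bool} (h : s <+: t) {i : ℕ} (hi : i < s.length) :
    t.getD i false = s.getD i false := by
  obtain ⟨r, rfl⟩ := h
  simp [List.getD, List.getElem?_append_left hi]

/-- The coded real. -/
noncomputable def code (G Y : Cantor) : Cantor := fun i => (stage G Y (i + 1)).getD i false

lemma code_eq (G Y : Cantor) {k i : ℕ} (hi : i < (stage G Y k).length) :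
    code G Y i = (stage G Y k).getD i false := by
  have h2 : i < (stage G Y (i + 1)).length := by have := le_length_stage G Y (i + 1); omega
  rcases le_total (i + 1) k with h | h
  · exact (getD_of_prefix (stage_prefix G Y h) h2).symm
  · exact getD_of_prefix (stage_prefix G Y h) hi

lemma pre_code (G Y : Cantor) {k : ℕ} {t : List Bool} (h : t <+: stage G Y k) :
    pre (code G Y) t.length = t := by
  refine List.ext_getElem (by simp) fun i h1 h2 => ?_
  have h3 := code_eq G Y (lt_of_lt_of_le h2 h.length_le)
  rw [getD_of_prefix h h2] at h3
  simp [pre, h3, List.getD, h2]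

lemma getD_pre_mono {Y : Cantor} {k m n : ℕ} (hkm : k ≤ m) (h : (pre Y k).getD n false = true) :
    (pre Y m).getD n false = true := by
  have hn : n < k := by
    by_contra hn
    simp [List.getD, pre, hn] at h
  rw [pre_getD _ hn] at h
  rw [pre_getD _ (by omega), h]

lemma code_fixed (G Y : Cantor) {k i : ℕ} (hf : fixedPos (pre Y k) (stage G Y k).length i = true) :
    code G Y i = G i := by
  simp only [fixedPos, Bool.and_eq_true, decide_eq_true_eq] at hf
  obtain ⟨hl, hc⟩ := hf
  have main : ∀ m, k ≤ m → i < (stage G Y m).length → code G Y i = G i := by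
    intro m hm
    induction m, hm using Nat.le_induction with
    | base => intro hi; omega
    | succ m hm ih =>
      intro hi
      by_cases hlt : i < (stage G Y m).length
      · exact ih hlt
      rw [code_eq G Y hi]
      have hp := compl_pick G Y m
      by_cases hip : i < (pick G (pre Y (m + 1)) m (stage G Y m)).length
      · rw [getD_of_prefix (pick_prefix_stage G Y m) hip]
        refine hp.eq_of_fixed hip ?_
        simp only [fixedPos, Bool.and_eq_true, decide_eq_true_eq]
        exact ⟨by omega, getD_pre_mono hm hc⟩
      · rw [stage_succ, next] at hi ⊢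
        rw [List.length_append, List.length_singleton] at hi
        obtain rfl : i = (pick G (pre Y (m + 1)) m (stage G Y m)).length := by omega
        simp [List.getD]
  exact main (max k (i + 1)) (le_max_left _ _)
    (by have := le_length_stage G Y (max k (i + 1)); omega)

lemma col_red_code {G Y : Cantor} {n : ℕ} (h : Y n = true) : Red (col n G) (code G Y) := by
  set N := (stage G Y (n + 1)).length
  have e : catS (pre (col n G) N) (drop N (col n (code G Y))) = col n G := by
    funext j
    by_cases hj : j < N
    · simp [catS, List.getD, hj, pre]
    · simp only [catS, List.getD, getElem?_pre, if_neg hj, Option.getD_none, length_pre, drop,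
        Nat.sub_add_cancel (not_lt.1 hj)]
      refine code_fixed G Y (k := n + 1) ?_
      simp only [fixedPos, Nat.unpair_pair, Bool.and_eq_true, decide_eq_true_eq]
      exact ⟨(not_lt.1 hj).trans (Nat.right_le_pair _ _), by rw [pre_getD _ (by omega), h]⟩
  rw [← e]
  refine Red.cat _ (Red.trans (deg_drop_le _ _) ?_)
  exact Func.red_of_gives (Func.gives_reidx (g := fun j => Nat.pair n j)
    (hg := (Primrec₂.natPair.comp (Primrec.const n) Primrec.id).to_comp) (code G Y))

lemma computable_mrg (c : List Bool) (l : ℕ) :
    Computable₂ fun σ t : List Bool => mrg c l σ t := by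
  have hi : Primrec fun y : (List Bool × List Bool) × ℕ => y.2 := Primrec.snd
  exact (Primrec.list_map (Primrec.list_range.comp (Primrec.list_length.comp Primrec.snd))
    (Primrec.cond (Primrec.and.comp (Primrec.nat_le.decide.comp (Primrec.const l) hi)
        ((Primrec.list_getD false).comp (Primrec.const c)
          (Primrec.fst.comp (Primrec.unpair.comp hi))))
      ((Primrec.list_getD false).comp (Primrec.fst.comp Primrec.fst) hi)
      ((Primrec.list_getD false).comp (Primrec.snd.comp Primrec.fst) hi)).to₂).to_comp

lemma not_col_red_code {G : Cantor} (hG : ∀ n, ¬ Red (col n G) (rest n G)) {Y : Cantor} {n : ℕ}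
    (h : Y n = false) : ¬ Red (col n G) (code G Y) := by
  intro hred
  obtain ⟨Φ, hΦ⟩ := hred.exists_func
  obtain ⟨e, rfl⟩ := enum_surj Φ
  set k := Nat.pair n e with hk
  have hnk : n ≤ k := Nat.left_le_pair n e
  set s := stage G Y k
  by_cases hE : Errs G (pre Y k) k s
  · have hcond : (pre Y (k + 1)).getD k.unpair.1 false = false ∧
        Errs G ((pre Y (k + 1)).take k) k s := by
      refine ⟨?_, by rwa [pre_succ_take]⟩
      rw [hk, Nat.unpair_pair, ← hk, pre_getD _ (by omega), h]
    obtain ⟨-, j, v, hv, hne⟩ := hcond.2.choose_spec
    have hp : pick G (pre Y (k + 1)) k s = hcond.2.choose := dif_pos hcond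
    rw [← hp] at hv
    simp only [hk, Nat.unpair_pair] at hne
    simp only [hk, Nat.unpair_pair] at hv
    obtain ⟨L, hL⟩ := hΦ j
    have hpre : pre (code G Y) (pick G (pre Y (k + 1)) k s).length =
        pick G (pre Y (k + 1)) k s := pre_code G Y (pick_prefix_stage G Y k)
    rw [← hk, ← hpre] at hv
    have h1 := (enum e).mono (pre_prefix (code G Y) (le_max_left _ L)) hv
    rw [(enum e).mono (pre_prefix (code G Y) (le_max_right _ L)) hL] at h1
    exact hne (Option.some.inj h1).symm
  · refine hG n ?_
    let dec : ℕ → List Bool := fun c => (Encodable.decode (α := List Bool) c).getD []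
    let g : List Bool → ℕ → Option Bool := fun σ j =>
      cond (decide ((dec σ.length.unpair.1).take s.length = s) &&
          (decide (mrg (pre Y k) s.length σ (dec σ.length.unpair.1) = dec σ.length.unpair.1) &&
            decide ((dec σ.length.unpair.1).length ≤ σ.length)))
        ((enum e).h (dec σ.length.unpair.1) j) none
    have hg : Computable₂ g := by
      have hd : Computable fun q : List Bool × ℕ => dec q.1.length.unpair.1 :=
        Computable.option_getD (Computable.decode.comp (Computable.fst.comp
          (Computable.unpair.comp (Computable.list_length.comp Computable.fst))))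
          (Computable.const [])
      exact (Computable.cond (Primrec.and.to_comp.comp
          ((Primrec.eq (α := List Bool)).decide.to_comp.comp
            (Primrec.list_take.to_comp.comp (Computable.const s.length) hd) (Computable.const s))
          (Primrec.and.to_comp.comp
            ((Primrec.eq (α := List Bool)).decide.to_comp.comp
              ((computable_mrg (pre Y k) s.length).comp Computable.fst hd) hd)
            (Primrec.nat_le.decide.to_comp.comp (Computable.list_length.comp hd)
              (Computable.list_length.comp Computable.fst))))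
        ((enum e).comp.comp hd Computable.snd) (Computable.const none)).to₂
    have hrest : ∀ i, fixedPos (pre Y k) s.length i = true → rest n G i = G i := by
      intro i hi
      simp only [fixedPos, Bool.and_eq_true] at hi
      have : i.unpair.1 ≠ n := by
        intro e'
        have := getD_pre_mono (Nat.le_succ k) hi.2
        rw [e', pre_getD _ (by omega), h] at this
        exact Bool.false_ne_true this
      simp [rest, this]
    refine Func.red_of_gives (Φ := Func.ofSearch g hg) (Func.gives_ofSearch ?_ ?_)
    · intro j L v hv
      simp only [g, length_pre] at hv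
      generalize dec L.unpair.1 = t at hv
      cases hc : (decide (t.take s.length = s) &&
          (decide (mrg (pre Y k) s.length (pre (rest n G) L) t = t) && decide (t.length ≤ L)))
      · rw [hc] at hv; simp at hv
      rw [hc, Bool.cond_true] at hv
      simp only [Bool.and_eq_true, decide_eq_true_eq] at hc
      obtain ⟨h1, h2, h3⟩ := hc
      have hcompl : Compl G (pre Y k) s t := by
        refine ⟨h1, mrg_eq_self fun i hi hf => ?_⟩
        rw [pre_getD _ hi]
        have e' : ((mrg (pre Y k) s.length (pre (rest n G) L) t)).getD i false = G i := by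
          simp [mrg, List.getD, hi, hf, show i < L by omega, hrest i hf]
        rw [h2] at e'
        exact e'.symm
      by_contra hne
      exact hE ⟨t, hcompl, j, v, by simpa [hk] using hv, by simpa [hk] using hne⟩
    · intro j
      obtain ⟨M, hM⟩ := hΦ j
      set L := max M s.length with hL
      set t := pre (code G Y) L with ht
      have h1 : t.take s.length = s := by
        rw [ht, pre_take, Nat.min_eq_left (le_max_right _ _)]
        exact pre_code G Y List.prefix_rfl
      refine ⟨Nat.pair (Encodable.encode t) t.length, col n G j, ?_⟩
      have h2 : mrg (pre Y k) s.length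
          (pre (rest n G) (Nat.pair (Encodable.encode t) t.length)) t = t := by
        refine mrg_eq_self fun i hi hf => ?_
        have := Nat.right_le_pair (Encodable.encode t) t.length
        rw [pre_getD _ (by omega), hrest i hf, ht,
          pre_getD _ (by simpa [ht] using hi), code_fixed G Y hf]
      simp only [g, dec, length_pre, Nat.unpair_pair, Encodable.encodek, Option.getD_some, h1, h2,
        decide_true, Bool.true_and, Nat.right_le_pair, Bool.cond_true]
      rw [ht]
      exact (enum e).mono (pre_prefix _ (le_max_left _ _)) hM

/-- The oracle listing every finite stage of the coding. -/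
noncomputable def table (G : Cantor) : Cantor := fun p =>
  (build G ((Encodable.decode (α := List Bool) p.unpair.1).getD []) (p.unpair.2 + 1)).getD
    p.unpair.2 false

lemma code_red (G Y : Cantor) : Red (code G Y) (J Y (table G)) := by
  have hpre : ∀ i, pre Y (i + 1) = (List.range (i + 1)).map fun j => J Y (table G) (2 * j) :=
    fun i => by simp [pre]
  let ys : List Bool → ℕ → List Bool := fun σ i =>
    (List.range (i + 1)).map fun j => σ.getD (2 * j) false
  let pos : List Bool → ℕ → ℕ := fun σ i => 2 * Nat.pair (Encodable.encode (ys σ i)) i + 1
  have hys : Computable₂ ys := by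
    exact (Primrec.list_map (Primrec.list_range.comp (Primrec.succ.comp Primrec.snd))
      ((Primrec.list_getD false).comp (Primrec.fst.comp Primrec.fst)
        (Primrec.nat_mul.comp (Primrec.const 2) Primrec.snd)).to₂).to_comp
  have hpos : Computable₂ pos := by
    exact (Computable.succ.comp ((Primrec.nat_mul.comp (Primrec.const 2) Primrec.id).to_comp.comp
      (Primrec₂.natPair.to_comp.comp (Computable.encode.comp hys) Computable.snd))).to₂
  let g : List Bool → ℕ → Option Bool := fun σ i =>
    cond (decide (2 * i + 2 ≤ σ.length) && decide (pos σ i < σ.length))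
      (some (σ.getD (pos σ i) false)) none
  have hg : Computable₂ g := by
    have h1 : Computable fun q : List Bool × ℕ => decide (2 * q.2 + 2 ≤ q.1.length) :=
      (Primrec.nat_le.decide.comp (Primrec.succ.comp (Primrec.succ.comp
        (Primrec.nat_mul.comp (Primrec.const 2) Primrec.snd)))
        (Primrec.list_length.comp Primrec.fst)).to_comp
    exact (Computable.cond (Primrec.and.to_comp.comp h1
        (Primrec.nat_lt.decide.to_comp.comp hpos (Computable.list_length.comp Computable.fst)))
      (Computable.option_some.comp
        ((Primrec.list_getD false).to_comp.comp Computable.fst hpos))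
      (Computable.const none)).to₂
  have key : ∀ i L, 2 * i + 2 ≤ L → ys (pre (J Y (table G)) L) i = pre Y (i + 1) := by
    intro i L hL
    rw [hpre]
    refine List.map_congr_left fun j hj => ?_
    rw [List.mem_range] at hj
    exact pre_getD _ (by omega)
  have key2 : ∀ i, J Y (table G) (2 * Nat.pair (Encodable.encode (pre Y (i + 1))) i + 1) =
      code G Y i := fun i => by
    simp [table, code, Encodable.encodek, build_pre]
  refine Func.red_of_gives (Φ := Func.ofSearch g hg) (Func.gives_ofSearch ?_ ?_)
  · intro i L v hv
    simp only [g, length_pre] at hv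
    cases hc : (decide (2 * i + 2 ≤ L) && decide (pos (pre (J Y (table G)) L) i < L))
    · rw [hc] at hv; simp at hv
    rw [hc, Bool.cond_true, Option.some.injEq] at hv
    simp only [Bool.and_eq_true, decide_eq_true_eq] at hc
    rw [← hv, pre_getD _ hc.2, ← key2 i]
    simp only [pos, key i L hc.1]
  · intro i
    set L := 2 * i + 2 + (2 * Nat.pair (Encodable.encode (pre Y (i + 1))) i + 2) with hL
    refine ⟨L, code G Y i, ?_⟩
    simp only [g, length_pre, pos, key i L (by omega)]
    rw [decide_eq_true (by omega), decide_eq_true (by omega), pre_getD _ (by omega), key2]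
    rfl

/-! ### The Borel family -/

open Classical in
/-- The output of `Φ` on `B`, completed by `false`. -/
noncomputable def ev (Φ : Func) (B : Cantor) : Cantor := fun n =>
  decide (∃ L, Φ.h (pre B L) n = some true)

open Classical in
lemma ev_eq {Φ : Func} {B A : Cantor} (h : Φ.Gives B A) : ev Φ B = A := by
  funext n
  simp only [ev]
  obtain ⟨L, hL⟩ := h n
  cases hA : A n
  · refine decide_eq_false fun ⟨M, hM⟩ => ?_
    have h1 := Φ.mono (pre_prefix B (le_max_left M L)) hM
    rw [Φ.mono (pre_prefix B (le_max_right M L)) hL, hA] at h1
    exact absurd h1 (by simp)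
  · exact decide_eq_true ⟨L, hA ▸ hL⟩

lemma measurable_ev (Φ : Func) {α : Type*} [MeasurableSpace α] {a : α → Cantor}
    (ha : Measurable a) : Measurable fun x => ev Φ (a x) := by
  refine measurable_pi_iff.2 fun n => measurable_to_bool ?_
  have : (fun x => ev Φ (a x) n) ⁻¹' {true} =
      ⋃ L, ⋃ s : List Bool, ⋃ (_ : Φ.h s n = some true), {x | pre (a x) L = s} := by
    ext x
    simp only [mem_preimage, mem_singleton_iff, ev, decide_eq_true_eq, mem_iUnion,
      Set.mem_ofPred_eq, exists_prop]
    exact exists_congr fun L => ⟨fun h => ⟨_, h, rfl⟩, by rintro ⟨s, h, rfl⟩; exact h⟩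
  rw [this]
  exact MeasurableSet.iUnion fun L => MeasurableSet.iUnion fun s =>
    MeasurableSet.iUnion fun _ => measurableSet_pre ha L s

/-- For any automorphism there are countably many Borel maps which, at every real `X`, produce
all members of the image of the degree of `X`. -/
theorem exists_borel_family (π : SetDegree ≃o SetDegree) : ∃ F : Func → Cantor → Cantor,
    (∀ i, Measurable (F i)) ∧ ∀ X Y : Cantor, deg Y = π (deg X) → ∃ i, F i X = Y := by
  classical
  obtain ⟨G, hG⟩ := exists_indep
  set O := table G
  set O' := rep (π.symm (deg O)) with hO'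
  let G' : ℕ → Cantor := fun n => rep (π.symm (deg (col n G)))
  refine ⟨fun Φ X n => decide (Red (G' n) (ev Φ (J X O'))), fun Φ => ?_, fun X Y hXY => ?_⟩
  · refine measurable_pi_iff.2 fun n => measurable_to_bool ?_
    have : (fun X => decide (Red (G' n) (ev Φ (J X O')))) ⁻¹' {true} =
        {X | Red (G' n) (ev Φ (J X O'))} := by
      ext X; simp
    rw [this]
    exact measurableSet_red measurable_const
      (measurable_ev Φ (Measurable.J measurable_id measurable_const))
  · have hup : deg (code G Y) ≤ π (deg (J X O')) := by
      refine le_trans (code_red G Y : deg (code G Y) ≤ deg (J Y O))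
        (deg_J_le_iff.2 ⟨hXY ▸ π.monotone (deg_left_le X O'), ?_⟩)
      have h := π.monotone (deg_right_le X O')
      rwa [hO', deg_rep, π.apply_symm_apply, ← hO'] at h
    have hR : Red (rep (π.symm (deg (code G Y)))) (J X O') := by
      rw [← deg_le_iff, deg_rep]
      exact π.symm_apply_le.2 hup
    obtain ⟨Φ, hΦ⟩ := hR.exists_func
    refine ⟨Φ, funext fun n => ?_⟩
    have hiff : Red (G' n) (ev Φ (J X O')) ↔ Red (col n G) (code G Y) := by
      rw [ev_eq hΦ, ← deg_le_iff, deg_rep, deg_rep, π.symm.le_iff_le, deg_le_iff]
    cases hY : Y n
    · exact decide_eq_false fun h => not_col_red_code hG hY (hiff.1 h)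
    · exact decide_eq_true (hiff.2 (col_red_code hY))

end Vale.Agent.P327
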