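import Vale.Agent.P327.Ops

/-!
# Baire category on Cantor space
-/

namespace Vale.Agent.P327

open Filter Set Topology

/-- The cylinder of sequences agreeing with `x` below `L`. -/
def cy (x : Cantor) (L : ℕ) : Set Cantor := {y | ∀ i < L, y i = x i}

lemma mem_cy_self (x : Cantor) (L : ℕ) : x ∈ cy x L := fun _ _ => rfl

lemma cy_anti (x : Cantor) {L M : ℕ} (h : L ≤ M) : cy x M ⊆ cy x L :=
  fun _ hy i hi => hy i (hi.trans_le h)

lemma cy_eq_of_mem {x y : Cantor} {L : ℕ} (h : y ∈ cy x L) : cy y L = cy x L := by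
  ext z
  exact ⟨fun hz i hi => (hz i hi).trans (h i hi), fun hz i hi => (hz i hi).trans (h i hi).symm⟩

lemma mem_cy_iff_pre {x y : Cantor} {L : ℕ} : y ∈ cy x L ↔ pre y L = pre x L := pre_eq_pre.symm

lemma isOpen_cy (x : Cantor) (L : ℕ) : IsOpen (cy x L) := by
  have : cy x L = ⋂ i ∈ Finset.range L, (fun y : Cantor => y i) ⁻¹' {x i} := by
    ext y; simp [cy]
  rw [this]
  exact isOpen_biInter_finset fun i _ => (isOpen_discrete _).preimage (continuous_apply i)

lemma exists_cy_subset {O : Set Cantor} (hO : IsOpen O) {x : Cantor} (hx : x ∈ O) :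
    ∃ L, cy x L ⊆ O := by
  obtain ⟨I, u, hu, hsub⟩ := isOpen_pi_iff.1 hO x hx
  refine ⟨I.sup (· + 1), fun y hy => hsub fun i hi => ?_⟩
  rw [hy i (Finset.le_sup (f := (· + 1)) hi)]
  exact (hu i hi).2

/-- The cylinders indexed by finite sequences. -/
def cyl (s : List Bool) : Set Cantor := cy (catS s zer) s.length

lemma pre_catS (s : List Bool) (A : Cantor) : pre (catS s A) s.length = s := by
  refine List.ext_getElem? fun i => ?_
  by_cases h : i < s.length
  · simp [h, catS, List.getD, pre]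
  · simp [pre, List.getElem?_eq_none (not_lt.1 h)]
    omega

lemma cyl_pre (x : Cantor) (L : ℕ) : cyl (pre x L) = cy x L := by
  rw [cyl, length_pre]
  refine cy_eq_of_mem (mem_cy_iff_pre.2 ?_)
  conv_lhs => arg 2; rw [← length_pre x L]
  rw [pre_catS]

/-- `E` meets every nonempty open subset of `U` in a nonmeagre set. -/
def EN (E U : Set Cantor) : Prop :=
  ∀ V, IsOpen V → V ⊆ U → V.Nonempty → ¬ IsMeagre (E ∩ V)

lemma EN.mono {E E' U U' : Set Cantor} (h : EN E U) (hE : E ⊆ E') (hU : U' ⊆ U) : EN E' U' :=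
  fun V hV hVU hne hm => h V hV (hVU.trans hU) hne (hm.mono (inter_subset_inter_left _ hE))

lemma EN.exists {E U : Set Cantor} (h : EN E U) {p : Cantor → Prop}
    (hp : ∀ᶠ x in residual Cantor, p x) {V : Set Cantor} (hV : IsOpen V) (hVU : V ⊆ U)
    (hne : V.Nonempty) : ∃ x ∈ E ∩ V, p x := by
  by_contra hc
  simp only [not_exists, not_and] at hc
  exact h V hV hVU hne (Filter.mem_of_superset hp fun x hx hxEV => hc x hxEV hx)

lemma isMeagre_of_forall_not {E : Set Cantor} {p : Cantor → Prop}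
    (hp : ∀ᶠ x in residual Cantor, p x) (h : ∀ x ∈ E, ¬ p x) : IsMeagre E :=
  Filter.mem_of_superset hp fun x hx hxE => h x hxE hx

lemma exists_mem_of_not_isMeagre {E : Set Cantor} (hE : ¬ IsMeagre E) {p : Cantor → Prop}
    (hp : ∀ᶠ x in residual Cantor, p x) : ∃ x ∈ E, p x := by
  by_contra hc
  simp only [not_exists, not_and] at hc
  exact hE (isMeagre_of_forall_not hp hc)

/-- A nonmeagre set is everywhere nonmeagre in some cylinder. -/
lemma exists_EN {E : Set Cantor} (hE : ¬ IsMeagre E) : ∃ x L, EN E (cy x L) := by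
  by_contra hc
  simp only [EN, not_exists, not_forall, not_not] at hc
  let W : Set Cantor := ⋃ s : {s : List Bool // IsMeagre (E ∩ cyl s)}, cyl s.1
  have hW : IsOpen W := isOpen_iUnion fun s => isOpen_cy _ _
  have hd : Dense W := by
    refine dense_iff_inter_open.2 fun O hO hne => ?_
    obtain ⟨x, hx⟩ := hne
    obtain ⟨L, hL⟩ := exists_cy_subset hO hx
    obtain ⟨V, hV, hVx, hVne, hm⟩ := hc x L
    obtain ⟨y, hy⟩ := hVne
    obtain ⟨M, hM⟩ := exists_cy_subset hV hy
    refine ⟨y, hL (hVx hy), mem_iUnion.2 ⟨⟨pre y M, ?_⟩, ?_⟩⟩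
    · rw [cyl_pre]; exact hm.mono (inter_subset_inter_right _ hM)
    · rw [cyl_pre]; exact mem_cy_self y M
  have h1 : IsMeagre (E ∩ W) := by
    rw [inter_iUnion]; exact isMeagre_iUnion fun s => s.2
  have h2 : IsMeagre Wᶜ := by
    rw [IsMeagre, compl_compl]; exact residual_of_dense_open hW hd
  exact hE ((h1.union h2).mono fun x hx => by by_cases h : x ∈ W <;> simp [hx, h])

lemma exists_not_isMeagre {ι : Type*} [Countable ι] {E : Set Cantor} (hE : ¬ IsMeagre E)
    {S : ι → Set Cantor} (hcov : ∀ᶠ x in residual Cantor, x ∈ E → ∃ i, x ∈ S i) :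
    ∃ i, ¬ IsMeagre (S i) := by
  by_contra hc
  simp only [not_exists, not_not] at hc
  refine hE ?_
  have h1 : IsMeagre {x | ¬ (x ∈ E → ∃ i, x ∈ S i)} :=
    isMeagre_of_forall_not hcov fun x hx => hx
  refine (h1.union (isMeagre_iUnion hc)).mono fun x hx => ?_
  by_cases h : ∃ i, x ∈ S i
  · exact Or.inr (mem_iUnion.2 h)
  · exact Or.inl (fun h' => h (h' hx))

lemma eventually_notMem_frontier {X : Type*} [TopologicalSpace X] {O : Set X} (hO : IsOpen O) :
    ∀ᶠ x in residual X, x ∈ closure O → x ∈ O := by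
  have : (frontier O)ᶜ ∈ residual X :=
    residual_of_dense_open isClosed_frontier.isOpen_compl
      (interior_eq_empty_iff_dense_compl.1 (by rw [← frontier_compl]; exact interior_frontier hO.isClosed_compl))
  filter_upwards [this] with x hx hcl
  by_contra h
  exact hx (by rw [hO.frontier_eq]; exact ⟨hcl, h⟩)

lemma exists_open_iff {X : Type*} [TopologicalSpace X] [MeasurableSpace X] [BorelSpace X]
    {P : Set X} (hP : MeasurableSet P) :
    ∃ O, IsOpen O ∧ ∀ᶠ x in residual X, x ∈ P ↔ x ∈ O := by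
  obtain ⟨O, hO, hPO⟩ := hP.baireMeasurableSet.residualEq_isOpen
  exact ⟨O, hO, hPO.mem_iff⟩

/-- A Borel set containing a set that is everywhere nonmeagre in an open set is comeagre there. -/
lemma EN.eventually_mem {E U P : Set Cantor} (h : EN E U) (hU : IsOpen U) (hP : MeasurableSet P)
    (hsub : ∀ᶠ x in residual Cantor, x ∈ E → x ∈ P) :
    ∀ᶠ x in residual Cantor, x ∈ U → x ∈ P := by
  obtain ⟨O, hO, hPO⟩ := exists_open_iff hP
  have hcl : U ⊆ closure O := by
    intro x hx
    by_contra hxO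
    obtain ⟨y, ⟨hyE, -, hyO⟩, hy⟩ := h.exists (hPO.and hsub)
      (V := U ∩ (closure O)ᶜ) (hU.inter isClosed_closure.isOpen_compl) inter_subset_left
      ⟨x, hx, hxO⟩
    exact hyO (subset_closure (hy.1.1 (hy.2 hyE)))
  filter_upwards [hPO, eventually_notMem_frontier hO] with x h1 h2 hx
  exact h1.2 (h2 (hcl hx))

/-- A nonmeagre Borel set is comeagre in some cylinder. -/
lemma exists_cy_of_measurable {P : Set Cantor} (hP : MeasurableSet P) (hne : ¬ IsMeagre P) :
    ∃ x L, ∀ᶠ y in residual Cantor, y ∈ cy x L → y ∈ P := by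
  obtain ⟨x, L, hEN⟩ := exists_EN hne
  exact ⟨x, L, hEN.eventually_mem (isOpen_cy x L) hP (Eventually.of_forall fun _ h => h)⟩

/-! ### Products -/

lemma eventually_slice_dense {O : Set (Cantor × Cantor)} (hO : IsOpen O) (hd : Dense O) :
    ∀ᶠ x in residual Cantor, ∀ᶠ y in residual Cantor, (x, y) ∈ O := by
  have key : ∀ s : List Bool, ∀ᶠ x in residual Cantor, ∃ y ∈ cyl s, (x, y) ∈ O := by
    intro s
    have hset : {x | ∃ y ∈ cyl s, (x, y) ∈ O} = Prod.fst '' (O ∩ univ ×ˢ cyl s) := by
      ext x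
      simp only [mem_image, mem_inter_iff, mem_prod, mem_univ, true_and, Prod.exists]
      exact ⟨fun ⟨y, hy, h⟩ => ⟨x, y, ⟨h, hy⟩, rfl⟩,
        fun ⟨x', y, ⟨h, hy⟩, e⟩ => ⟨y, hy, by cases e; exact h⟩⟩
    refine residual_of_dense_open (s := {x | ∃ y ∈ cyl s, (x, y) ∈ O}) ?_ ?_
    · rw [hset]
      exact isOpenMap_fst _ (hO.inter (isOpen_univ.prod (isOpen_cy _ _)))
    · refine dense_iff_inter_open.2 fun U hU ⟨a, ha⟩ => ?_
      obtain ⟨⟨x, y⟩, hxy, hO'⟩ := dense_iff_inter_open.1 hd (U ×ˢ cyl s)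
        (hU.prod (isOpen_cy _ _)) ⟨(a, catS s zer), ha, mem_cy_self _ _⟩
      exact ⟨x, hxy.1, y, hxy.2, hO'⟩
  filter_upwards [eventually_countable_forall.2 key] with x hx
  refine residual_of_dense_open (hO.preimage (by fun_prop : Continuous fun y => (x, y)))
    (dense_iff_inter_open.2 fun V hV ⟨b, hb⟩ => ?_)
  obtain ⟨L, hL⟩ := exists_cy_subset hV hb
  obtain ⟨y, hy, hyO⟩ := hx (pre b L)
  exact ⟨y, hL (cyl_pre b L ▸ hy), hyO⟩

/-- The Kuratowski–Ulam theorem, in the direction used here. -/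
lemma eventually_slice {p : Cantor × Cantor → Prop}
    (hp : ∀ᶠ z in residual (Cantor × Cantor), p z) :
    ∀ᶠ x in residual Cantor, ∀ᶠ y in residual Cantor, p (x, y) := by
  obtain ⟨S, hSo, hSd, hSc, hsub⟩ := mem_residual_iff.1 hp
  filter_upwards [(eventually_countable_ball hSc).2
    fun t ht => eventually_slice_dense (hSo t ht) (hSd t ht)] with x hx
  filter_upwards [(eventually_countable_ball hSc).2 hx] with y hy
  exact hsub (mem_sInter.2 hy)

lemma eventually_slice_swap {p : Cantor × Cantor → Prop}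
    (hp : ∀ᶠ z in residual (Cantor × Cantor), p z) :
    ∀ᶠ y in residual Cantor, ∀ᶠ x in residual Cantor, p (x, y) :=
  eventually_slice (p := fun z => p z.swap)
    ((tendsto_residual_of_isOpenMap (f := Prod.swap) continuous_swap
      (Homeomorph.prodComm Cantor Cantor).isOpenMap).eventually hp)

/-- Near a generic point of a Borel subset of the square, the slice is comeagre. -/
lemma slice_of_mem {R : Set (Cantor × Cantor)} (hR : MeasurableSet R) :
    ∀ᶠ a in residual Cantor, ∀ᶠ v in residual Cantor, (a, v) ∈ R →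
      ∃ L, ∀ᶠ a' in residual Cantor, a' ∈ cy a L → (a', v) ∈ R := by
  obtain ⟨O, hO, hRO⟩ := exists_open_iff hR
  filter_upwards [eventually_slice hRO] with a ha
  filter_upwards [ha, eventually_slice_swap hRO] with v hv hsl hmem
  obtain ⟨L, hL⟩ := exists_cy_subset
    (hO.preimage (by fun_prop : Continuous fun x => (x, v))) (hv.1 hmem)
  refine ⟨L, ?_⟩
  filter_upwards [hsl] with a' ha' hc
  exact ha'.2 (hL hc)

/-- A Borel subset of the square whose slices are comeagre over an everywhere nonmeagre set is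
comeagre. -/
lemma eventually_prod_of_EN {R : Set (Cantor × Cantor)} (hR : MeasurableSet R) {P : Set Cantor}
    (hP : EN P univ)
    (h : ∀ z ∈ P, ∀ᶠ x in residual Cantor, (x, z) ∈ R) :
    ∀ᶠ q in residual (Cantor × Cantor), q ∈ R := by
  obtain ⟨O, hO, hRO⟩ := exists_open_iff hR
  have hd : Dense O := by
    refine dense_iff_inter_open.2 fun W hW ⟨⟨x, z⟩, hxz⟩ => ?_
    obtain ⟨U, V, hU, hV, hx, hz, hsub⟩ := isOpen_prod_iff.1 hW x z hxz
    obtain ⟨z', ⟨hzP, hzV⟩, hz'⟩ := hP.exists (eventually_slice_swap hRO) hV (subset_univ _)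
      ⟨z, hz⟩
    by_contra hc
    have hmeagre : IsMeagre U := isMeagre_of_forall_not ((h z' hzP).and hz') fun x' hx' hh =>
      hc ⟨(x', z'), hsub ⟨hx', hzV⟩, hh.2.1 hh.1⟩
    exact not_isMeagre_of_isOpen hU ⟨x, hx⟩ hmeagre
  filter_upwards [hRO, residual_of_dense_open hO hd] with q hq hqO
  exact hq.2 hqO

/-- A Borel map is continuous on a comeagre set, stated with cylinders. -/
lemma exists_continuity_set {f : Cantor → Cantor} (hf : Measurable f) :
    ∃ C : Set Cantor, C ∈ residual Cantor ∧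
      ∀ x ∈ C, ∀ n, ∃ L, ∀ y ∈ C, y ∈ cy x L → pre (f y) n = pre (f x) n := by
  have hm : ∀ (n : ℕ) (w : List Bool), MeasurableSet {x | pre (f x) n = w} := by
    intro n w
    by_cases hw : w.length = n
    · have : {x | pre (f x) n = w} = ⋂ i ∈ Finset.range n, {x | f x i = w.getD i false} := by
        ext x
        simp only [Set.mem_ofPred_eq, mem_iInter, Finset.mem_range]
        constructor
        · rintro rfl i hi; simp [pre, hi, List.getD]
        · intro h
          refine List.ext_getElem (by simp [hw]) fun i h1 h2 => ?_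
          simp [pre, h i (by simpa using h1), List.getD, h2]
      rw [this]
      exact Finset.measurableSet_biInter _ fun i _ =>
        ((measurable_pi_apply i).comp hf) (MeasurableSet.singleton _)
    · have : {x | pre (f x) n = w} = ∅ :=
        eq_empty_of_forall_notMem fun x hx => hw (by rw [← hx, length_pre])
      rw [this]; exact MeasurableSet.empty
  choose O hO hOiff using fun p : ℕ × List Bool => exists_open_iff (hm p.1 p.2)
  have hall := eventually_countable_forall.2 hOiff
  refine ⟨{x | ∀ q : ℕ × List Bool, x ∈ {x | pre (f x) q.1 = q.2} ↔ x ∈ O q}, hall,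
    fun x hx n => ?_⟩
  obtain ⟨L, hL⟩ := exists_cy_subset (hO (n, pre (f x) n)) ((hx (n, pre (f x) n)).1 rfl)
  exact ⟨L, fun y hy hc => (hy (n, pre (f x) n)).2 (hL hc)⟩

end Vale.Agent.P327
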