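import Vale.Agent.P327.Sim

/-!
# A finite certificate for a prefix, and translations with prescribed prefixes
-/

namespace Vale.Agent.P327

open Filter Set Topology

variable {π : SetDegree ≃o SetDegree} {K : Cantor}

lemma Func.outputs_eq {Φ : Func} {a a' q b b' : Cantor} (h : Φ.Gives (J a q) b) (n : ℕ) :
    ∃ L, ∀ {a' b'}, a' ∈ cy a L → Φ.Gives (J a' q) b' → pre b' n = pre b n := by
  obtain ⟨L, hL⟩ := Φ.gives_upto h n
  refine ⟨L, fun {a' b'} ha h' => pre_eq_pre.2 fun i hi => ?_⟩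
  have e : pre (J a' q) L = pre (J a q) L := pre_eq_pre.2 fun j hj => by
    simp only [J]
    rw [ha j.div2 (by rw [Nat.div2_val]; omega)]
  obtain ⟨L', hL'⟩ := Φ.gives_at h' i
  have h1 := Φ.mono (pre_prefix _ (le_max_left L L')) (e ▸ hL L le_rfl i hi)
  rw [hL' _ (le_max_right L L')] at h1
  exact Option.some.inj h1

lemma mem_cy_of_pre_le {x y : Cantor} {L M : ℕ} (h : L ≤ M) (e : pre y M = pre x M) :
    y ∈ cy x L :=
  mem_cy_iff_pre.2 (pre_mono_eq h e)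

lemma Anchor.exists_certificate (a : Anchor π K) (L : ℕ) :
    ∃ M m w κ, L ≤ M ∧ (∀ᶠ X in residual Cantor, X ∈ cy κ M → pre (a.f X) m = w) ∧
      ∀ᶠ X in residual Cantor, pre (a.f X) m = w → X ∈ cy κ L := by
  by_contra hno
  simp only [not_exists, not_and] at hno
  obtain ⟨Z₁, ⟨hZ₁, -⟩, -⟩ := a.en_P.exists (Eventually.of_forall fun _ => trivial)
    isOpen_univ Subset.rfl univ_nonempty
  let R : Set (Cantor × Cantor) :=
    {q | a.Φ.Gives (J (a.f q.1) (a.Q Z₁ q.2)) (a.f (xr q.1 (xr Z₁ q.2)))}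
  have hR : MeasurableSet R := measurableSet_gives _
    (Measurable.J (a.measurable_f.comp measurable_fst)
      ((a.measurable_Q Z₁).comp measurable_snd))
    (a.measurable_f.comp (Measurable.xr measurable_fst
      (Measurable.xr measurable_const measurable_snd)))
  have hslice : ∀ᶠ X in residual Cantor, ∀ᶠ Z in residual Cantor, (X, Z) ∈ R :=
    eventually_slice (p := fun q => q ∈ R)
      (eventually_prod_of_EN hR a.en_P fun Z hZ => a.ident Z₁ hZ₁ Z hZ)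
  obtain ⟨C, hC, hcont⟩ := exists_continuity_set a.measurable_f
  have hgood : ∀ᶠ X in residual Cantor,
      X ∈ C ∧ a.h (a.f X) = X ∧ ∀ᶠ Z in residual Cantor, (X, Z) ∈ R :=
    (Eventually.and hC (a.inv.and hslice))
  obtain ⟨X₀, -, hX₀C, hX₀i, hX₀R⟩ :=
    exists_mem_of_not_isMeagre (not_isMeagre_of_isOpen isOpen_univ univ_nonempty) hgood
  have hseq : ∀ m, ∃ X, (pre (a.f X) m = pre (a.f X₀) m ∧ X ∉ cy X₀ L) ∧
      ∀ᶠ Z in residual Cantor, (X, Z) ∈ R := by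
    intro m
    obtain ⟨L₁, hL₁⟩ := hcont X₀ hX₀C m
    have h1 : ∀ᶠ X in residual Cantor,
        X ∈ cy X₀ (max L₁ L) → pre (a.f X) m = pre (a.f X₀) m :=
      (Eventually.mono hC fun X hXC hX => hL₁ X hXC (cy_anti _ (le_max_left _ _) hX))
    have h2 := hno (max L₁ L) m (pre (a.f X₀) m) X₀ (le_max_right _ _) h1
    have hnm : ¬ IsMeagre {X | pre (a.f X) m = pre (a.f X₀) m ∧ X ∉ cy X₀ L} := fun hm =>
      h2 (Eventually.mono (show ∀ᶠ X in residual Cantor, ¬ (pre (a.f X) m = pre (a.f X₀) m ∧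
        X ∉ cy X₀ L) from hm) fun X hX hw => by_contra fun hc => hX ⟨hw, hc⟩)
    obtain ⟨X, hX, hXR⟩ := exists_mem_of_not_isMeagre hnm hslice
    exact ⟨X, hX, hXR⟩
  choose Xs hXs hXsR using hseq
  obtain ⟨X₁, φ, hφ, hlim⟩ := CompactSpace.tendsto_subseq Xs
  have hnear : ∀ N, ∀ᶠ i in atTop, Xs (φ i) ∈ cy X₁ N := fun N =>
    hlim.eventually ((isOpen_cy X₁ N).mem_nhds (mem_cy_self _ _))
  have hcondC : ∀ᶠ Z in residual Cantor, ∀ i, xr (Xs i) (xr Z₁ Z) ∈ C :=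
    eventually_countable_forall.2 fun i => by
      simp only [← xr_assoc]
      exact eventually_xr' _ hC
  have hD : ∀ x, ∀ᶠ Z in residual Cantor,
      xr x (xr Z₁ Z) ∈ C ∧ a.h (a.f (xr x (xr Z₁ Z))) = xr x (xr Z₁ Z) := fun x => by
    simp only [← xr_assoc]
    exact eventually_xr' _ (p := fun Y => Y ∈ C ∧ a.h (a.f Y) = Y) (Eventually.and hC a.inv)
  obtain ⟨Z, -, hZ0, hZs, hZC, hD0, hD1⟩ := exists_mem_of_not_isMeagre
    (not_isMeagre_of_isOpen isOpen_univ univ_nonempty)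
    (hX₀R.and ((eventually_countable_forall.2 hXsR).and (hcondC.and ((hD X₀).and (hD X₁)))))
  set D := xr Z₁ Z
  have hfeq : a.f (xr X₀ D) = a.f (xr X₁ D) := by
    funext n
    obtain ⟨N, hN⟩ := Func.outputs_eq (a' := zer) (b' := zer) hZ0 (n + 1)
    obtain ⟨N', hN'⟩ := hcont _ hD1.1 (n + 1)
    obtain ⟨i, hi, hiN⟩ := ((hnear N').and (eventually_ge_atTop N)).exists
    have e1 : pre (a.f (xr (Xs (φ i)) D)) (n + 1) = pre (a.f (xr X₁ D)) (n + 1) := by
      refine hN' _ (hZC _) fun j hj => ?_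
      simp only [xr]
      rw [hi j hj]
    have e2 : pre (a.f (xr (Xs (φ i)) D)) (n + 1) = pre (a.f (xr X₀ D)) (n + 1) :=
      hN (mem_cy_of_pre_le (hiN.trans hφ.le_apply) (hXs (φ i)).1) (hZs (φ i))
    exact pre_eq_pre.1 (e2.symm.trans e1) n (by omega)
  have hX : X₀ = X₁ := by
    have := congrArg a.h hfeq
    rw [hD0.2, hD1.2] at this
    simpa using congrArg (fun Y => xr Y D) this
  obtain ⟨i, hi⟩ := (hnear L).exists
  exact (hXs (φ i)).2 (by rw [hX]; exact hi)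

/-- The pattern `p` padded with zeros. -/
def pad {M : ℕ} (p : Fin M → Bool) : Cantor := fun n => if h : n < M then p ⟨n, h⟩ else false

lemma Anchor.exists_translations (a : Anchor π K) {Y₀ B : Cantor} (hK : deg K ≤ deg B)
    (hB : ¬ Red Y₀ B) (M : ℕ) :
    ∃ B', deg B ≤ deg B' ∧ ¬ Red Y₀ B' ∧ ∀ p : Fin M → Bool,
      ∃ D ∈ cy (pad p) M, Sim π a.f B' fun X => a.f (xr X D) := by
  classical
  suffices H : ∀ s : Finset (Fin M → Bool), ∃ B', deg B ≤ deg B' ∧ ¬ Red Y₀ B' ∧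
      ∀ p ∈ s, ∃ D ∈ cy (pad p) M, Sim π a.f B' fun X => a.f (xr X D) by
    obtain ⟨B', h1, h2, h3⟩ := H Finset.univ
    exact ⟨B', h1, h2, fun p => h3 p (Finset.mem_univ p)⟩
  intro s
  induction s using Finset.induction_on with
  | empty => exact ⟨B, le_rfl, hB, fun p hp => absurd hp (Finset.notMem_empty p)⟩
  | insert p s _ ih =>
    obtain ⟨B', hBB', hB', hs⟩ := ih
    obtain ⟨Z₁, ⟨hZ₁P, hZ₁c⟩, hZ₁⟩ := a.en_P.exists (eventually_not_red hB')
      (isOpen_cy (pad p) M) (subset_univ _) ⟨_, mem_cy_self _ _⟩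
    obtain ⟨Z₂, ⟨hZ₂P, hZ₂c⟩, hZ₂⟩ := a.en_P.exists (eventually_not_red hZ₁)
      (isOpen_cy zer M) (subset_univ _) ⟨_, mem_cy_self _ _⟩
    have hB'' : deg B' ≤ deg (J (J B' Z₁) Z₂) := (deg_left_le _ _).trans (deg_left_le _ _)
    refine ⟨J (J B' Z₁) Z₂, hBB'.trans hB'', hZ₂, ?_⟩
    intro q hq
    rcases Finset.mem_insert.1 hq with rfl | hq
    · refine ⟨xr Z₁ Z₂, fun n hn => by simp [xr, hZ₁c n hn, hZ₂c n hn, zer], ?_⟩
      have hq : deg (a.Q Z₁ Z₂) ≤ π (deg (J (J B' Z₁) Z₂)) :=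
        a.deg_Q Z₁ hZ₁P Z₂ hZ₂P _ ((hK.trans hBB').trans hB'')
          ((deg_right_le _ _).trans (deg_left_le _ _)) (deg_right_le _ _)
      exact (Sim.self.pair (Sim.const hq)).map (a.ident Z₁ hZ₁P Z₂ hZ₂P)
    · obtain ⟨D, hD, hS⟩ := hs q hq
      exact ⟨D, hD, hS.mono hB''⟩

end Vale.Agent.P327
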