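import Vale.Agent.P327.Certificate

/-!
# The decoder: from the image of `X` to the digit stream of `X`
-/

namespace Vale.Agent.P327

open Filter Set Topology

variable {π : SetDegree ≃o SetDegree} {K : Cantor}

/-- The functional reading bit `k`, as a constant sequence. -/
def Func.bit (k : ℕ) : Func := Func.reidx (fun _ => k) (Computable.const k)

lemma Func.gives_bit (k : ℕ) (B : Cantor) : (Func.bit k).Gives B fun _ => B k :=
  Func.gives_reidx B

/-- The functional testing whether the oracle starts with `w`. -/
def Func.window (m : ℕ) (w : List Bool) : Func :=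
  Func.ofModulus (fun _ => m) (fun σ _ => decide (σ = w)) (Computable.const m)
    (((Primrec.eq (α := List Bool)).decide.comp Primrec.fst (Primrec.const w)).to_comp.to₂)

lemma Func.gives_window (m : ℕ) (w : List Bool) (B : Cantor) :
    (Func.window m w).Gives B fun _ => decide (pre B m = w) :=
  Func.gives_ofModulus fun _ => rfl

lemma deg_sh_le {A : Cantor} {c : SetDegree} (h : deg A ≤ c) : deg (sh A) ≤ c :=
  le_trans (deg_le_iff.2 (Func.red_of_gives (Func.gives_shift A))) h

/-- Every bit of a prefix is decoded by a single functional. -/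
lemma Anchor.sim_bit (a : Anchor π K) {B : Cantor} {M m L : ℕ} {w : List Bool} {κ : Cantor}
    (hLM : L ≤ M) (hκ : ∀ᶠ X in residual Cantor, X ∈ cy κ M → pre (a.f X) m = w)
    (hw : ∀ᶠ X in residual Cantor, pre (a.f X) m = w → X ∈ cy κ L)
    (htr : ∀ p : Fin M → Bool, ∃ D ∈ cy (pad p) M, Sim π a.f B fun X => a.f (xr X D))
    {i : ℕ} (hi : i < L) : Sim π a.f B fun X _ => X i := by
  choose D hD hS using htr
  classical
  have key : ∀ s : Finset (Fin M → Bool), Sim π a.f B fun X _ => decide (∃ p ∈ s,
      pre (a.f (xr X (D p))) m = w ∧ xor (κ i) (D p i) = true) := by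
    intro s
    induction s using Finset.induction_on with
    | empty =>
      exact (Sim.const_catS []).congr (Eventually.of_forall fun X => funext fun n => by
        simp [catS, zer])
    | insert p s _ ih =>
      by_cases hp : xor (κ i) (D p i) = true
      · have h1 : Sim π a.f B fun X _ => decide (pre (a.f (xr X (D p))) m = w) :=
          (hS p).map (Eventually.of_forall fun X => Func.gives_window m w _)
        have ht : Sim π a.f B fun _ _ => true :=
          (Sim.const_catS [true]).map (Φ := Func.bit 0)
            (Eventually.of_forall fun _ => Func.gives_bit 0 _)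
        refine (h1.ite ht ih).congr (Eventually.of_forall fun X => funext fun n => ?_)
        by_cases hwin : pre (a.f (xr X (D p))) m = w
        · simp only [decide_eq_true hwin, Bool.cond_true]
          exact (decide_eq_true ⟨p, Finset.mem_insert_self p s, hwin, hp⟩).symm
        · simp only [decide_eq_false hwin, Bool.cond_false]
          refine decide_eq_decide.2 ?_
          rw [Finset.exists_mem_insert]
          simp only [hwin, false_and, false_or]
      · exact ih.congr (Eventually.of_forall fun X => funext fun n => by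
          refine decide_eq_decide.2 ?_
          rw [Finset.exists_mem_insert]
          exact ⟨Or.inr, fun h => h.resolve_left fun h' => hp h'.2⟩)
  refine (key Finset.univ).congr ?_
  have e1 : ∀ᶠ X in residual Cantor, ∀ p, (xr X (D p) ∈ cy κ M → pre (a.f (xr X (D p))) m = w) ∧
      (pre (a.f (xr X (D p))) m = w → xr X (D p) ∈ cy κ L) :=
    eventually_countable_forall.2 fun p => eventually_xr (D p) (hκ.and hw)
  filter_upwards [e1] with X hX
  funext n
  rw [Bool.eq_iff_iff, decide_eq_true_iff]
  constructor
  · rintro ⟨p, -, hp, hx⟩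
    have := (hX p).2 hp i hi
    simp only [xr] at this
    revert this hx
    cases X i <;> cases D p i <;> cases κ i <;> simp
  · intro hXi
    let p : Fin M → Bool := fun j => xor (X j.1) (κ j.1)
    have hp : ∀ j < M, D p j = xor (X j) (κ j) := fun j hj => by
      rw [hD p j hj]; simp [pad, hj, p]
    refine ⟨p, Finset.mem_univ _, (hX p).1 fun j hj => ?_, ?_⟩
    · simp [xr, hp j hj]
    · simp [hp i (hi.trans_le hLM), hXi]

lemma continuous_xr_piecewise {g : Cantor → Cantor} {N : ℕ}
    (hg : ∀ p q, q ∈ cy p N → g q = g p) : Continuous fun X => xr X (g X) := by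
  refine continuous_def.2 fun O hO => ?_
  have : (fun X => xr X (g X)) ⁻¹' O =
      ⋃ x, cy x N ∩ (fun X => xr X (g x)) ⁻¹' O := by
    ext X
    simp only [mem_preimage, mem_iUnion, mem_inter_iff]
    exact ⟨fun h => ⟨X, mem_cy_self _ _, h⟩, fun ⟨x, hx, h⟩ => by rwa [hg x X hx]⟩
  rw [this]
  exact isOpen_iUnion fun x => (isOpen_cy x N).inter (hO.preimage (xrHomeo (g x)).continuous)

lemma isOpenMap_xr_piecewise {g : Cantor → Cantor} {N : ℕ}
    (hg : ∀ p q, q ∈ cy p N → g q = g p) : IsOpenMap fun X => xr X (g X) := by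
  intro O hO
  have : (fun X => xr X (g X)) '' O = ⋃ x, xrHomeo (g x) '' (O ∩ cy x N) := by
    ext Z
    simp only [mem_image, mem_iUnion]
    constructor
    · rintro ⟨X, hX, rfl⟩
      exact ⟨X, X, ⟨hX, mem_cy_self _ _⟩, rfl⟩
    · rintro ⟨x, X, ⟨hX, hx⟩, rfl⟩
      exact ⟨X, hX, by rw [hg x X hx]; rfl⟩
  rw [this]
  exact isOpen_iUnion fun x => (xrHomeo (g x)).isOpenMap _ (hO.inter (isOpen_cy x N))

lemma tendsto_sh : Tendsto sh (residual Cantor) (residual Cantor) :=
  tendsto_residual_of_isOpenMap continuous_sh (isOpenMap_drop 1)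

/-- The decoder theorem. -/
theorem Anchor.exists_decoder (a : Anchor π K) {F : Func → Cantor → Cantor}
    (hFm : ∀ i, Measurable (F i)) (hF : ∀ X Y, deg Y = π (deg X) → ∃ i, F i X = Y)
    {Y₀ B₀ : Cantor} (hK : deg K ≤ deg B₀) (hB₀ : ¬ Red Y₀ B₀) :
    ∃ B, deg B₀ ≤ deg B ∧ ¬ Red Y₀ B ∧ ∃ (k : ℕ) (d : Cantor) (O : Cantor → Cantor),
      d 0 = true ∧ Sim π a.f B O ∧
      ∀ X X' : Cantor, (∀ i < k, X' i = X i) →
        xr (O X) (O X') = dig d (drop k (xr X X')) := by
  let R : Func × Func → Set (Cantor × Cantor) := fun p =>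
    {q | p.2.Gives (J (a.f q.1) (F p.1 q.2)) (a.f (xr (sh q.1) q.2))}
  have hR : ∀ p, MeasurableSet (R p) := fun p => measurableSet_gives _
    (Measurable.J (a.measurable_f.comp measurable_fst) ((hFm p.1).comp measurable_snd))
    (a.measurable_f.comp
      (Measurable.xr (continuous_sh.measurable.comp measurable_fst) measurable_snd))
  obtain ⟨A, ⟨hAE, -⟩, hAgood, hAav⟩ := a.en_E.exists
    ((eventually_countable_forall.2 fun p => slice_of_mem (hR p)).and (eventually_not_red hB₀))
    isOpen_univ Subset.rfl univ_nonempty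
  obtain ⟨Y, ⟨hYE, -⟩, hYgood, hYav⟩ := a.en_E.exists
    ((eventually_countable_forall.2 fun p => eventually_xr' (sh A) (hAgood p)).and
      (eventually_not_red hAav))
    isOpen_univ Subset.rfl univ_nonempty
  set V := xr (sh A) Y with hV
  obtain ⟨i, hi⟩ := hF V (rep (π (deg V))) (deg_rep _)
  have hVdeg : deg (F i V) = π (deg V) := by rw [hi, deg_rep]
  obtain ⟨e, he⟩ := exists_gives_of_le (A := a.f Y) (B := J (a.f A) (F i V)) (by
    rw [map_deg_J π (a.valid A hAE) hVdeg, a.valid Y hYE]
    refine π.monotone ?_
    conv_lhs => rw [← xr_cancel_left (sh A) Y]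
    exact deg_xr_le (deg_sh_le (deg_left_le _ _)) (deg_right_le _ _))
  obtain ⟨k, hk⟩ := hYgood (i, e) (by
    show e.Gives _ _
    rw [hV, xr_cancel_left]
    exact he)
  obtain ⟨M, m, w, κ, hkM, hκ, hw⟩ := a.exists_certificate (k + 1)
  have hK₁ : deg K ≤ deg (J (J B₀ A) Y) := hK.trans ((deg_left_le _ _).trans (deg_left_le _ _))
  obtain ⟨B, hB₁, hB, htr⟩ := a.exists_translations hK₁ hYav M
  have hbit : ∀ j < k + 1, Sim π a.f B fun X _ => X j := fun j hj =>
    a.sim_bit hkM hκ hw htr hj
  choose D hD hS using htr
  obtain ⟨Ψk, hΨk⟩ := hbit k (by omega)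
  let ek : Fin M → Bool := fun j => decide (j.1 = k)
  let lo : Cantor → Fin M → Bool := fun X j => decide (j.1 < k) && xor (X j.1) (A j.1)
  let g : Cantor → Cantor := fun X =>
    xr (D (lo X)) (cond (xor (X k) (A k)) (D ek) zer)
  have hek : ∀ n ≤ k, D ek n = decide (n = k) := fun n hn => by
    rw [hD ek n (by omega)]; simp [pad, ek, show n < M by omega]
  have hlo : ∀ X, ∀ n ≤ k, D (lo X) n = (decide (n < k) && xor (X n) (A n)) := fun X n hn => by
    rw [hD _ n (by omega)]; simp [pad, lo, show n < M by omega]
  have hloc : ∀ p q : Cantor, (∀ j < k, q j = p j) → lo q = lo p := fun p q hq => by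
    funext j
    by_cases hj : j.1 < k
    · simp [lo, hq j.1 hj]
    · simp [lo, hj]
  have hg : ∀ p q, q ∈ cy p (k + 1) → g q = g p := fun p q hq => by
    simp only [g]
    rw [hloc p q fun j hj => hq j (by omega), hq k (by omega)]
  have hgA : ∀ X, xr X (g X) ∈ cy A (k + 1) := by
    intro X n hn
    simp only [xr, g]
    rw [hlo X n (by omega)]
    rcases Nat.lt_or_ge n k with h | h
    · have : ∀ c : Bool, cond c (D ek) zer n = false := fun c => by
        cases c <;> simp [zer, hek n (by omega), h.ne]
      rw [this]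
      simp [h]
    · obtain rfl : n = k := by omega
      cases hX : X n <;> cases hA : A n <;> simp [hek n le_rfl, zer]
  let G : Cantor → Cantor := fun X => xr (sh (xr X (g X))) V
  have hT : Tendsto (fun X => xr X (g X)) (residual Cantor) (residual Cantor) :=
    tendsto_residual_of_isOpenMap (continuous_xr_piecewise hg) (isOpenMap_xr_piecewise hg)
  have hG : Tendsto G (residual Cantor) (residual Cantor) :=
    (tendsto_residual_of_isOpenMap (xrHomeo V).continuous (xrHomeo V).isOpenMap).comp
      (tendsto_sh.comp hT)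
  have hpairs : ∀ p : Cantor, Sim π a.f B fun X => a.f (xr X (g p)) := by
    intro p
    simp only [g]
    cases xor (p k) (A k)
    · simpa using hS (lo p)
    · have h1 : Sim π a.f B fun X => a.f (xr (xr X (D (lo p))) (D ek)) :=
        Sim.comp (tendsto_residual_of_isOpenMap (xrHomeo (D (lo p))).continuous
          (xrHomeo (D (lo p))).isOpenMap) (hS (lo p)) (T := fun X => a.f (xr X (D ek))) (hS ek)
      exact h1.congr (Eventually.of_forall fun X => by simp [xr_assoc])
  have hfT : Sim π a.f B fun X => a.f (xr X (g X)) :=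
    Sim.cases (k + 1) hbit (fun p X => a.f (xr X (g p)))
      (fun p q hq => by simp only [hg p q hq]) hpairs
  have hq : deg (F i V) ≤ π (deg B) := by
    rw [hVdeg]
    refine π.monotone (le_trans ?_ hB₁)
    exact deg_xr_le (deg_sh_le ((deg_right_le _ _).trans (deg_left_le _ _))) (deg_right_le _ _)
  obtain ⟨Ψg, hΨg⟩ : Sim π a.f B fun X => a.f (G X) :=
    (hfT.pair (Sim.const hq)).map ((hT.eventually hk).mono fun X hX => hX (cy_anti A (by omega)
      (hgA X)))
  let O : Cantor → Cantor := fun X n => G^[n] X k
  have hO : Sim π a.f B O := by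
    refine ⟨(Ψg.pair Func.right).iter Ψk, ?_⟩
    have hn : ∀ n, Tendsto (G^[n]) (residual Cantor) (residual Cantor) := fun n => by
      induction n with
      | zero => exact tendsto_id
      | succ n ih => rw [Function.iterate_succ']; exact hG.comp ih
    filter_upwards [eventually_countable_forall.2 fun n => (hn n).eventually (hΨg.and hΨk)]
      with X hX
    refine Func.gives_iter (fun n => J (a.f (G^[n] X)) (img π B)) (O X) (fun n => ?_)
      fun n => ⟨_, (hX n).2, rfl⟩
    rw [Function.iterate_succ_apply']
    exact Func.gives_pair (hX n).1 (Func.gives_right _ _)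
  set d := drop k (D ek) with hd
  have hd0 : d 0 = true := by simp [hd, drop, hek k le_rfl]
  refine ⟨B, ((deg_left_le _ _).trans (deg_left_le _ _)).trans hB₁, hB, k, d, O, hd0, hO,
    fun X X' hXX => ?_⟩
  have hstep : ∀ X X' : Cantor, (∀ i < k, X' i = X i) →
      (∀ i < k, G X' i = G X i) ∧ drop k (xr (G X) (G X')) = step d (drop k (xr X X')) := by
    intro X X' h
    have hGG : xr (G X) (G X') =
        sh (xr (xr X X') (cond (xor (X k) (X' k)) (D ek) zer)) := by
      funext n
      simp only [G, g, xr, sh, hloc X X' h]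
      generalize X (n + 1) = p, X' (n + 1) = q, V n = v, D (lo X) (n + 1) = r
      cases X k <;> cases X' k <;> cases A k <;>
        cases p <;> cases q <;> cases v <;> cases r <;> simp [zer]
    refine ⟨fun j hj => ?_, ?_⟩
    · have := congrFun hGG j
      simp only [xr, sh] at this
      rcases Nat.lt_or_ge (j + 1) k with h1 | h1
      · have e : cond (xor (X k) (X' k)) (D ek) zer (j + 1) = false := by
          cases xor (X k) (X' k) <;> simp [zer, hek (j + 1) (by omega), h1.ne]
        rw [e, h (j + 1) h1] at this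
        revert this
        cases G X j <;> cases G X' j <;> simp
      · obtain rfl : k = j + 1 := by omega
        revert this
        cases G X j <;> cases G X' j <;> cases X (j + 1) <;> cases X' (j + 1) <;>
          simp [zer, hek (j + 1) le_rfl]
    · rw [hGG]
      funext n
      simp only [drop, step, sh, xr, Nat.zero_add, hd]
      rw [show n + k + 1 = n + 1 + k by omega]
      cases xor (X k) (X' k) <;> rfl
  have horb : ∀ n, (∀ i < k, G^[n] X' i = G^[n] X i) ∧
      drop k (xr (G^[n] X) (G^[n] X')) = (step d)^[n] (drop k (xr X X')) := by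
    intro n
    induction n with
    | zero => exact ⟨hXX, rfl⟩
    | succ n ih =>
      simp only [Function.iterate_succ_apply', ← ih.2]
      exact hstep _ _ ih.1
  funext n
  simp [dig, ← (horb n).2, O, drop, xr]

end Vale.Agent.P327
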