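import Mathlib

/-!
# Turing degrees of sets of natural numbers

The definitions used by the final statement. They only specialise Mathlib's `TuringReducible`
to characteristic functions.
-/

namespace Vale.Agent.P327

/-- The characteristic function of a set of natural numbers, given as `A : ℕ → Bool`, seen as a
(total) partial function. -/
def charFn (A : ℕ → Bool) : ℕ →. ℕ := fun n => Part.some (cond (A n) 1 0)

/-- The Turing degree of a set of natural numbers. -/
def degOf (A : ℕ → Bool) : TuringDegree :=
  toAntisymmetrization TuringReducible (charFn A)

/-- The Turing degrees of sets of natural numbers, ordered by Turing reducibility. -/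
abbrev SetDegree : Type := {a : TuringDegree // ∃ A : ℕ → Bool, degOf A = a}

end Vale.Agent.P327
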