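import Vale.Agent.P327.Degrees

/-!
# Continuous computable functionals on Cantor space
-/

namespace Vale.Agent.P327

/-- Cantor space. -/
abbrev Cantor : Type := ℕ → Bool

/-- The initial segment of length `L`. -/
def pre (B : Cantor) (L : ℕ) : List Bool := (List.range L).map B

@[simp] lemma length_pre (B : Cantor) (L : ℕ) : (pre B L).length = L := by simp [pre]

@[simp] lemma getElem?_pre (B : Cantor) (L n : ℕ) :
    (pre B L)[n]? = if n < L then some (B n) else none := by
  by_cases h : n < L <;> simp [pre, h]

lemma pre_prefix (B : Cantor) {L M : ℕ} (h : L ≤ M) : pre B L <+: pre B M := by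
  obtain ⟨k, rfl⟩ := Nat.exists_eq_add_of_le h
  exact ⟨(List.range k).map fun i => B (L + i), by simp [pre, List.range_add, Function.comp_def]⟩

lemma pre_take (B : Cantor) (L k : ℕ) : (pre B L).take k = pre B (min k L) := by
  simp [pre, ← List.map_take, List.take_range]

lemma pre_eq_pre {B C : Cantor} {L : ℕ} : pre B L = pre C L ↔ ∀ i < L, B i = C i := by
  simp [pre, List.map_inj_left]

lemma pre_mono_eq {B C : Cantor} {L M : ℕ} (h : L ≤ M) (e : pre B M = pre C M) :
    pre B L = pre C L :=
  pre_eq_pre.2 fun i hi => pre_eq_pre.1 e i (hi.trans_le h)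

lemma computable₂_iff_nat {h : List Bool → ℕ → Option Bool} :
    Computable₂ h → ∃ c : Nat.Partrec.Code,
      ∀ σ n, c.eval (Encodable.encode (σ, n)) = Part.some (Encodable.encode (h σ n)) := by
  intro hh
  obtain ⟨c, hc⟩ := Nat.Partrec.Code.exists_code.1 (show Nat.Partrec _ from hh)
  refine ⟨c, fun σ n => ?_⟩
  rw [hc]
  simp [Encodable.encodek]

/-- A continuous computable functional: a computable monotone map from finite oracle prefixes and
arguments to answers. -/
structure Func where
  h : List Bool → ℕ → Option Bool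
  comp : Computable₂ h
  mono : ∀ {σ τ : List Bool} {n : ℕ} {v : Bool}, σ <+: τ → h σ n = some v → h τ n = some v

instance : Countable Func := by
  classical
  choose c hc using fun Φ : Func => computable₂_iff_nat Φ.comp
  refine Function.Injective.countable (f := c) fun Φ Ψ e => ?_
  have hh : Φ.h = Ψ.h := by
    funext σ n
    have h1 := hc Φ σ n
    rw [e, hc Ψ σ n] at h1
    exact (Encodable.encode_injective (Part.some_injective h1)).symm
  obtain ⟨_, _, _⟩ := Φ
  obtain ⟨_, _, _⟩ := Ψ
  subst hh
  rfl

/-- `Φ.Gives B A`: on oracle `B` the functional `Φ` computes `A`. -/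
def Func.Gives (Φ : Func) (B A : Cantor) : Prop := ∀ n, ∃ L, Φ.h (pre B L) n = some (A n)

lemma Func.gives_at {Φ : Func} {B A : Cantor} (hg : Φ.Gives B A) (n : ℕ) :
    ∃ L, ∀ M, L ≤ M → Φ.h (pre B M) n = some (A n) :=
  (hg n).imp fun _ hL _ hM => Φ.mono (pre_prefix B hM) hL

lemma Func.gives_upto {Φ : Func} {B A : Cantor} (hg : Φ.Gives B A) (N : ℕ) :
    ∃ L, ∀ M, L ≤ M → ∀ n < N, Φ.h (pre B M) n = some (A n) := by
  choose L hL using Func.gives_at hg
  refine ⟨(Finset.range N).sup L, fun M hM n hn => hL n M (le_trans ?_ hM)⟩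
  exact Finset.le_sup (f := L) (Finset.mem_range.2 hn)

lemma Func.gives_unique {Φ : Func} {B A A' : Cantor} (h₁ : Φ.Gives B A) (h₂ : Φ.Gives B A') :
    A = A' := by
  funext n
  obtain ⟨L, hL⟩ := Φ.gives_at h₁ n
  obtain ⟨L', hL'⟩ := Φ.gives_at h₂ n
  have h := hL (max L L') (le_max_left _ _)
  rw [hL' (max L L') (le_max_right _ _)] at h
  exact (Option.some.inj h).symm

/-- Turing reducibility on Cantor space. -/
def Red (A B : Cantor) : Prop := TuringReducible (charFn A) (charFn B)

lemma Red.refl (A : Cantor) : Red A A := TuringReducible.refl _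

lemma Red.trans {A B C : Cantor} (h₁ : Red A B) (h₂ : Red B C) : Red A C :=
  TuringReducible.trans h₁ h₂

/-- The answers of `Φ` on `σ`, up to the first missing one. -/
def outPrefix (h : List Bool → ℕ → Option Bool) (σ : List Bool) : List Bool :=
  (Nat.rec ([] : List Bool)
    (fun k acc => if acc.length = k then ((h σ k).map fun b => acc ++ [b]).getD acc else acc)
    σ.length : List Bool)

/-- The recursion behind `outPrefix`. -/
def outUpTo (h : List Bool → ℕ → Option Bool) (σ : List Bool) : ℕ → List Bool
  | 0 => []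
  | k + 1 =>
    if (outUpTo h σ k).length = k then
      ((h σ k).map fun b => outUpTo h σ k ++ [b]).getD (outUpTo h σ k)
    else outUpTo h σ k

lemma outPrefix_eq (h : List Bool → ℕ → Option Bool) (σ : List Bool) :
    outPrefix h σ = outUpTo h σ σ.length := by
  unfold outPrefix
  generalize σ.length = k
  induction k with
  | zero => rfl
  | succ k ih => simp only [outUpTo, ← ih]

lemma length_outUpTo_le (h : List Bool → ℕ → Option Bool) (σ : List Bool) :
    ∀ k, (outUpTo h σ k).length ≤ k
  | 0 => le_rfl
  | k + 1 => by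
    have := length_outUpTo_le h σ k
    rw [outUpTo]
    split
    · cases hh : h σ k <;> simp <;> omega
    · omega

lemma outUpTo_getElem? (h : List Bool → ℕ → Option Bool) (σ : List Bool) :
    ∀ k i, i < (outUpTo h σ k).length → (outUpTo h σ k)[i]? = h σ i
  | 0, i => by simp [outUpTo]
  | k + 1, i => by
    have ih := outUpTo_getElem? h σ k i
    rw [outUpTo]
    split
    · rename_i hlen
      cases hh : h σ k with
      | none => simpa using ih
      | some b =>
        intro hi
        simp only [Option.map_some, Option.getD_some, List.length_append, List.length_singleton]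
          at hi ⊢
        rcases Nat.lt_or_ge i k with hik | hik
        · rw [List.getElem?_append_left (by omega)]
          exact ih (by omega)
        · obtain rfl : i = k := by omega
          rw [List.getElem?_append_right (by omega), hh]
          simp [hlen]
    · exact ih

lemma outUpTo_prefix_succ (h : List Bool → ℕ → Option Bool) (σ : List Bool) (k : ℕ) :
    outUpTo h σ k <+: outUpTo h σ (k + 1) := by
  rw [outUpTo]
  split
  · cases hh : h σ k <;> simp
  · exact List.prefix_rfl

lemma length_outUpTo_of_some (h : List Bool → ℕ → Option Bool) (σ : List Bool) :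
    ∀ k, (∀ i < k, (h σ i).isSome) → (outUpTo h σ k).length = k
  | 0, _ => rfl
  | k + 1, hs => by
    have ih := length_outUpTo_of_some h σ k fun i hi => hs i (by omega)
    obtain ⟨b, hb⟩ := Option.isSome_iff_exists.1 (hs k (by omega))
    simp [outUpTo, ih, hb]

lemma outUpTo_prefix_of_mono (Φ : Func) {σ τ : List Bool} (hp : σ <+: τ) :
    ∀ k, outUpTo Φ.h σ k <+: outUpTo Φ.h τ k
  | 0 => List.prefix_rfl
  | k + 1 => by
    have ih := outUpTo_prefix_of_mono Φ hp k
    have hs := outUpTo_prefix_succ Φ.h τ k
    by_cases hlen : (outUpTo Φ.h σ k).length = k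
    · cases hb : Φ.h σ k with
      | none => simpa [outUpTo, hlen, hb] using ih.trans hs
      | some b =>
        have hb' := Φ.mono hp hb
        have hlen' : (outUpTo Φ.h τ k).length = k :=
          le_antisymm (length_outUpTo_le _ _ _) (by have := ih.length_le; omega)
        have heq : outUpTo Φ.h σ k = outUpTo Φ.h τ k := ih.eq_of_length (by omega)
        simp [outUpTo, hlen', hb, hb', heq]
    · simpa [outUpTo, hlen] using ih.trans hs

lemma outUpTo_prefix_le (h : List Bool → ℕ → Option Bool) (σ : List Bool) {k m : ℕ} (hkm : k ≤ m) :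
    outUpTo h σ k <+: outUpTo h σ m := by
  induction m, hkm using Nat.le_induction with
  | base => exact List.prefix_rfl
  | succ m _ ih => exact ih.trans (outUpTo_prefix_succ h σ m)

lemma outPrefix_mono (Φ : Func) {σ τ : List Bool} (hp : σ <+: τ) :
    outPrefix Φ.h σ <+: outPrefix Φ.h τ := by
  rw [outPrefix_eq, outPrefix_eq]
  exact (outUpTo_prefix_of_mono Φ hp _).trans (outUpTo_prefix_le _ _ hp.length_le)

lemma outPrefix_eventually {Φ : Func} {B A : Cantor} (hg : Φ.Gives B A) (N : ℕ) :
    ∃ L, ∀ M, L ≤ M → pre A N <+: outPrefix Φ.h (pre B M) := by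
  obtain ⟨L, hL⟩ := Φ.gives_upto hg N
  refine ⟨max L N, fun M hM => ?_⟩
  have hNM : N ≤ M := le_trans (le_max_right _ _) hM
  have hlen : (outUpTo Φ.h (pre B M) N).length = N :=
    length_outUpTo_of_some _ _ _ fun i hi => by
      rw [hL M (le_trans (le_max_left _ _) hM) i hi]; rfl
  have heq : outUpTo Φ.h (pre B M) N = pre A N := by
    refine List.ext_getElem? fun i => ?_
    by_cases hi : i < N
    · rw [outUpTo_getElem? _ _ _ _ (by omega), hL M (le_trans (le_max_left _ _) hM) i hi]
      simp [hi, pre]
    · rw [List.getElem?_eq_none (by omega), List.getElem?_eq_none (by simp; omega)]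
  rw [outPrefix_eq, length_pre, ← heq]
  exact outUpTo_prefix_le _ _ hNM

lemma outPrefix_computable (Φ : Func) : Computable (outPrefix Φ.h) := by
  have hstep : Computable₂ fun (σ : List Bool) (p : ℕ × List Bool) =>
      if p.2.length = p.1 then ((Φ.h σ p.1).map fun b => p.2 ++ [b]).getD p.2 else p.2 := by
    have hcond : Computable fun q : List Bool × ℕ × List Bool =>
        decide (q.2.2.length = q.2.1) :=
      (Primrec.eq.decide.comp (Primrec.list_length.comp (Primrec.snd.comp Primrec.snd))
        (Primrec.fst.comp Primrec.snd)).to_comp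
    have happ : Computable fun q : List Bool × ℕ × List Bool =>
        ((Φ.h q.1 q.2.1).map fun b => q.2.2 ++ [b]).getD q.2.2 := by
      refine Computable.option_getD ?_ (Computable.snd.comp Computable.snd)
      refine Computable.option_map (Φ.comp.comp Computable.fst
        (Computable.fst.comp Computable.snd)) ?_
      exact (Computable.list_append.comp
        (Computable.snd.comp (Computable.snd.comp Computable.fst))
        (Computable.list_cons.comp Computable.snd (Computable.const [])))
    refine (Computable.cond hcond happ (Computable.snd.comp Computable.snd)).of_eq fun q => ?_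
    by_cases h : q.2.2.length = q.2.1 <;> simp [h]
  exact (Computable.nat_rec Computable.list_length (Computable.const []) hstep).of_eq fun σ => rfl

/-- Composition of functionals. -/
def Func.then (Φ Ψ : Func) : Func where
  h σ n := Ψ.h (outPrefix Φ.h σ) n
  comp := Ψ.comp.comp ((outPrefix_computable Φ).comp Computable.fst) Computable.snd
  mono hp := Ψ.mono (outPrefix_mono Φ hp)

lemma Func.gives_then {Φ Ψ : Func} {A B C : Cantor} (h₁ : Φ.Gives A B) (h₂ : Ψ.Gives B C) :
    (Φ.then Ψ).Gives A C := by
  intro n
  obtain ⟨L, hL⟩ := h₂ n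
  obtain ⟨M, hM⟩ := outPrefix_eventually h₁ L
  exact ⟨M, Ψ.mono (hM M le_rfl) hL⟩

/-- Iterate `Φ` and then read bit `0` with `Ψ`. -/
def Func.iter (Φ Ψ : Func) : Func where
  h σ n := Ψ.h ((outPrefix Φ.h)^[n] σ) 0
  comp := by
    have hit : Computable fun q : List Bool × ℕ => (outPrefix Φ.h)^[q.2] q.1 := by
      refine (Computable.nat_rec Computable.snd Computable.fst
        ((outPrefix_computable Φ).comp (Computable.snd.comp Computable.snd)).to₂).of_eq fun q => ?_
      induction q.2 with
      | zero => rfl
      | succ k ih => rw [Function.iterate_succ_apply', ← ih]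
    exact Ψ.comp.comp hit (Computable.const 0)
  mono {σ τ n v} hp := by
    refine Ψ.mono ?_
    induction n with
    | zero => exact hp
    | succ k ih =>
      rw [Function.iterate_succ_apply', Function.iterate_succ_apply']
      exact outPrefix_mono Φ ih

lemma Func.gives_iter {Φ Ψ : Func} (S : ℕ → Cantor) (T : Cantor)
    (h₁ : ∀ n, Φ.Gives (S n) (S (n + 1))) (h₂ : ∀ n, ∃ R : Cantor, Ψ.Gives (S n) R ∧ R 0 = T n) :
    (Φ.iter Ψ).Gives (S 0) T := by
  intro n
  have hev : ∀ n N, ∃ L, pre (S n) N <+: (outPrefix Φ.h)^[n] (pre (S 0) L) := by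
    intro n
    induction n with
    | zero => exact fun N => ⟨N, List.prefix_rfl⟩
    | succ k ih =>
      intro N
      obtain ⟨M, hM⟩ := outPrefix_eventually (h₁ k) N
      obtain ⟨L, hL⟩ := ih M
      refine ⟨L, ?_⟩
      rw [Function.iterate_succ_apply']
      exact (hM M le_rfl).trans (outPrefix_mono Φ hL)
  obtain ⟨R, hR, hR0⟩ := h₂ n
  obtain ⟨N, hN⟩ := hR 0
  obtain ⟨L, hL⟩ := hev n N
  exact ⟨L, hR0 ▸ Ψ.mono hL hN⟩

/-- A functional given by a computable modulus. -/
def Func.ofModulus (u : ℕ → ℕ) (F : List Bool → ℕ → Bool) (hu : Computable u)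
    (hF : Computable₂ F) : Func where
  h σ n := if u n ≤ σ.length then some (F (σ.take (u n)) n) else none
  comp := by
    have hc : Computable fun q : List Bool × ℕ => decide (u q.2 ≤ q.1.length) :=
      Primrec.nat_le.decide.to_comp.comp (hu.comp Computable.snd)
        (Computable.list_length.comp Computable.fst)
    have hv : Computable fun q : List Bool × ℕ => some (F (q.1.take (u q.2)) q.2) :=
      Computable.option_some.comp (hF.comp
        (Primrec.list_take.to_comp.comp (hu.comp Computable.snd) Computable.fst) Computable.snd)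
    refine (Computable.cond hc hv (Computable.const none)).of_eq fun q => ?_
    by_cases h : u q.2 ≤ q.1.length <;> simp [h]
  mono {σ τ n v} hp := by
    obtain ⟨t, rfl⟩ := hp
    by_cases h : u n ≤ σ.length
    · have h' : u n ≤ (σ ++ t).length := by simp; omega
      rw [if_pos h, if_pos h', List.take_append_of_le_length h]
      exact id
    · simp [h]

lemma Func.gives_ofModulus {u : ℕ → ℕ} {F : List Bool → ℕ → Bool} {hu : Computable u}
    {hF : Computable₂ F} {B A : Cantor} (h : ∀ n, F (pre B (u n)) n = A n) :
    (Func.ofModulus u F hu hF).Gives B A :=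
  fun n => ⟨u n, by simp [Func.ofModulus, pre_take, h]⟩

/-- Case distinction on the answer of `Ψ` at `0`. -/
def Func.sel (Ψ Φ₁ Φ₀ : Func) : Func where
  h σ n := (Ψ.h σ 0).bind fun b => cond b (Φ₁.h σ n) (Φ₀.h σ n)
  comp := Computable.option_bind (Ψ.comp.comp Computable.fst (Computable.const 0))
    (Computable.cond Computable.snd
      (Φ₁.comp.comp (Computable.fst.comp Computable.fst) (Computable.snd.comp Computable.fst))
      (Φ₀.comp.comp (Computable.fst.comp Computable.fst)
        (Computable.snd.comp Computable.fst))).to₂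
  mono {σ τ n v} hp h := by
    obtain ⟨b, hb, hv⟩ := Option.bind_eq_some_iff.1 h
    rw [Ψ.mono hp hb]
    cases b <;> exact Func.mono _ hp hv

lemma Func.gives_sel {Ψ Φ₁ Φ₀ : Func} {B R A : Cantor} (hR : Ψ.Gives B R)
    (h : (cond (R 0) Φ₁ Φ₀).Gives B A) : (Ψ.sel Φ₁ Φ₀).Gives B A := by
  intro n
  obtain ⟨L, hL⟩ := Func.gives_at hR 0
  obtain ⟨L', hL'⟩ := Func.gives_at h n
  refine ⟨max L L', ?_⟩
  simp only [Func.sel, hL _ (le_max_left _ _), Option.bind_some]
  have h2 := hL' _ (le_max_right L L')
  cases hb : R 0 <;> rw [hb] at h2 <;> exact h2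

end Vale.Agent.P327
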