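import Vale.Agent.P327.Decoder

/-!
# No automorphism preimage of a degree is outside the cone below it
-/

namespace Vale.Agent.P327

open Filter Set Topology

lemma eventually_ne_point (a : Cantor) : ∀ᶠ x in residual Cantor, x ≠ a := by
  refine residual_of_dense_open (s := {x | x ≠ a}) isOpen_ne (dense_iff_inter_open.2 ?_)
  rintro O hO ⟨x, hx⟩
  obtain ⟨L, hL⟩ := exists_cy_subset hO hx
  have hmem : ∀ b : Bool, (fun n => cond (decide (n = L)) b (x n)) ∈ O := fun b =>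
    hL fun i hi => by simp [hi.ne]
  refine ⟨_, hmem (!a L), fun e => ?_⟩
  have := congrFun e L
  simp at this

lemma deg_stream_le {π : SetDegree ≃o SetDegree} {f : Cantor → Cantor} {B B' X : Cantor}
    {O : Cantor → Cantor} {Ψ : Func} (h : Ψ.Gives (J (f X) (img π B)) (O X))
    (hB : deg B ≤ deg B') (hf : deg (f X) ≤ π (deg B')) : deg (O X) ≤ π (deg B') :=
  le_trans (deg_le_iff.2 (Func.red_of_gives h))
    (deg_J_le_iff.2 ⟨hf, by rw [deg_img]; exact π.monotone hB⟩)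

theorem symm_le (π : SetDegree ≃o SetDegree) {F G : Func → Cantor → Cantor}
    (hFm : ∀ i, Measurable (F i)) (hF : ∀ X Y, deg Y = π (deg X) → ∃ i, F i X = Y)
    (hGm : ∀ i, Measurable (G i)) (hG : ∀ X Y, deg Y = π.symm (deg X) → ∃ i, G i X = Y)
    (u : SetDegree) : π.symm u ≤ u := by
  by_contra hcon
  set U := catS [true] (rep u) with hU
  have hUdeg : deg U = u := by rw [hU, deg_catS, deg_rep]
  have hU0 : U 0 = true := by simp [hU, catS]
  set Y₀ := rep (π.symm u) with hY₀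
  have hB₀ : ¬ Red Y₀ U := fun h => hcon (by
    have := deg_le_iff.2 h
    rwa [hY₀, deg_rep, hUdeg] at this)
  obtain ⟨B₁, hUB₁, hB₁, ⟨a⟩⟩ := exists_anchor π hFm hF hGm hG hB₀
  obtain ⟨B₂, hB₁₂, hB₂, k, d, O, hd, ⟨Ψ, hΨ⟩, halg⟩ := a.exists_decoder hFm hF le_rfl hB₁
  have hmul : Tendsto (mul U) (residual Cantor) (residual Cantor) :=
    tendsto_residual_of_isOpenMap (mulHomeo U hU0).continuous (mulHomeo U hU0).isOpenMap
  obtain ⟨⟨i₁, i₂⟩, hne⟩ := exists_not_isMeagre (E := (univ : Set Cantor))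
    (not_isMeagre_of_isOpen isOpen_univ univ_nonempty)
    (S := fun p : Func × Func =>
      {α | deg (F p.1 α) = π (deg α) ∧ deg (F p.2 (mul U α)) = π (deg (mul U α))})
    (Eventually.of_forall fun α _ => by
      obtain ⟨i, hi⟩ := hF α (rep (π (deg α))) (deg_rep _)
      obtain ⟨j, hj⟩ := hF (mul U α) (rep (π (deg (mul U α)))) (deg_rep _)
      exact ⟨(i, j), by simp [hi], by simp [hj]⟩)
  obtain ⟨c, Lc, hT⟩ := exists_EN hne
  let R : Func × Func × Func → Set (Cantor × Cantor) := fun p =>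
    {q | p.2.2.Gives (J (F p.1 q.1) (F p.2.1 q.2)) (a.f (xr q.1 q.2))}
  have hR : ∀ p, MeasurableSet (R p) := fun p => measurableSet_gives _
    (Measurable.J ((hFm p.1).comp measurable_fst) ((hFm p.2.1).comp measurable_snd))
    (a.measurable_f.comp (Measurable.xr measurable_fst measurable_snd))
  have hslice := eventually_countable_forall.2 fun p => slice_of_mem (hR p)
  obtain ⟨α, ⟨⟨hα₁, hα₂⟩, hαc⟩, ⟨hαs, hαUs⟩, hαav⟩ := hT.exists
    ((hslice.and (hmul.eventually hslice)).and (eventually_not_red hB₂))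
    (isOpen_cy c Lc) Subset.rfl ⟨c, mem_cy_self c Lc⟩
  -- the second point on the line through `α`
  obtain ⟨Z, ⟨hZE, -⟩, hZs, hZΨ, hZav⟩ := a.en_E.exists
    ((eventually_countable_forall.2 fun p => eventually_xr' α (hαs p)).and
      (hΨ.and (eventually_not_red hαav))) isOpen_univ Subset.rfl univ_nonempty
  obtain ⟨Z', ⟨hZ'E, -⟩, hZ's, hZ'Ψ, hZ'av⟩ := a.en_E.exists
    ((eventually_countable_forall.2 fun p => eventually_xr' (mul U α) (hαUs p)).and
      (hΨ.and (eventually_not_red hZav))) isOpen_univ Subset.rfl univ_nonempty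
  set V₁ := xr α Z with hV₁
  set V₂ := xr (mul U α) Z' with hV₂
  obtain ⟨j₁, hj₁⟩ := hF V₁ (rep (π (deg V₁))) (deg_rep _)
  obtain ⟨j₂, hj₂⟩ := hF V₂ (rep (π (deg V₂))) (deg_rep _)
  have hj₁' : deg (F j₁ V₁) = π (deg V₁) := by rw [hj₁, deg_rep]
  have hj₂' : deg (F j₂ V₂) = π (deg V₂) := by rw [hj₂, deg_rep]
  obtain ⟨e₁, he₁⟩ := exists_gives_of_le (A := a.f Z) (B := J (F i₁ α) (F j₁ V₁)) (by
    rw [map_deg_J π hα₁ hj₁', a.valid Z hZE]
    refine π.monotone ?_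
    conv_lhs => rw [← xr_cancel_left α Z]
    exact deg_xr_le (deg_left_le _ _) (deg_right_le _ _))
  obtain ⟨e₂, he₂⟩ := exists_gives_of_le (A := a.f Z') (B := J (F i₂ (mul U α)) (F j₂ V₂)) (by
    rw [map_deg_J π hα₂ hj₂', a.valid Z' hZ'E]
    refine π.monotone ?_
    conv_lhs => rw [← xr_cancel_left (mul U α) Z']
    exact deg_xr_le (deg_left_le _ _) (deg_right_le _ _))
  obtain ⟨L₁, hL₁⟩ := hZs (i₁, j₁, e₁) (by
    show e₁.Gives _ _
    rw [xr_cancel_left]
    exact he₁)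
  obtain ⟨L₂, hL₂⟩ := hZ's (i₂, j₂, e₂) (by
    show e₂.Gives _ _
    rw [xr_cancel_left]
    exact he₂)
  obtain ⟨M, hkM, hM₁, hM₂, hMc⟩ : ∃ M, k ≤ M ∧ L₁ ≤ M ∧ L₂ ≤ M ∧ Lc ≤ M :=
    ⟨max (max k L₁) (max L₂ Lc), by omega, by omega, by omega, by omega⟩
  have hsub : cy α M ⊆ cy c Lc := (cy_anti α hMc).trans (cy_eq_of_mem hαc).subset
  obtain ⟨β, ⟨⟨hβ₁, hβ₂⟩, hβα⟩, hβR₁, hβR₂, hβΨ₁, hβΨ₂, hβne, hβav⟩ := hT.exists
    (hL₁.and ((hmul.eventually hL₂).and ((eventually_xr V₁ hΨ).and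
      ((hmul.eventually (eventually_xr V₂ hΨ)).and
        ((eventually_ne_point α).and (eventually_not_red hZ'av))))))
    (isOpen_cy α M) hsub ⟨α, mem_cy_self α M⟩
  set B := J (J (J (J B₂ α) Z) Z') β
  have l₂ : deg B₂ ≤ deg B :=
    ((deg_left_le _ _).trans (deg_left_le _ _)).trans ((deg_left_le _ _).trans (deg_left_le _ _))
  have lα : deg α ≤ deg B :=
    ((deg_right_le _ _).trans (deg_left_le _ _)).trans ((deg_left_le _ _).trans (deg_left_le _ _))
  have lZ : deg Z ≤ deg B := ((deg_right_le _ _).trans (deg_left_le _ _)).trans (deg_left_le _ _)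
  have lZ' : deg Z' ≤ deg B := (deg_right_le _ _).trans (deg_left_le _ _)
  have lβ : deg β ≤ deg B := deg_right_le _ _
  have lU : deg U ≤ deg B := (hUB₁.trans hB₁₂).trans l₂
  have lV₁ : deg V₁ ≤ deg B := deg_xr_le lα lZ
  have lV₂ : deg V₂ ≤ deg B := deg_xr_le (deg_mul_le lU lα) lZ'
  have hX₁ : deg (a.f (xr β V₁)) ≤ π (deg B) := le_trans
    (deg_le_iff.2 (Func.red_of_gives (hβR₁ (cy_anti α hM₁ hβα))))
    (deg_J_le_iff.2 ⟨hβ₁ ▸ π.monotone lβ, hj₁' ▸ π.monotone lV₁⟩)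
  have hX₂ : deg (a.f (xr (mul U β) V₂)) ≤ π (deg B) := le_trans
    (deg_le_iff.2 (Func.red_of_gives (hβR₂ (mul_mem_cy (cy_anti α hM₂ hβα)))))
    (deg_J_le_iff.2 ⟨hβ₂ ▸ π.monotone (deg_mul_le lU lβ), hj₂' ▸ π.monotone lV₂⟩)
  set δ := drop k (xr α β) with hδ
  have hzero : ∀ i < k, xr α β i = false := fun i hi => by
    simp [xr, hβα i (hi.trans_le hkM)]
  have o₁ : xr (O Z) (O (xr β V₁)) = dig d δ := by
    rw [halg Z (xr β V₁) fun i hi => by simp [xr, hV₁, hβα i (hi.trans_le hkM)]]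
    congr 2
    funext i
    simp only [xr, hV₁]
    cases α i <;> cases β i <;> cases Z i <;> rfl
  have o₂ : xr (O Z') (O (xr (mul U β) V₂)) = mul U (dig d δ) := by
    have hb : ∀ i < k, mul U β i = mul U α i := fun i hi =>
      mul_mem_cy hβα i (hi.trans_le hkM)
    rw [halg Z' (xr (mul U β) V₂) fun i hi => by simp [xr, hV₂, hb i hi],
      ← dig_mul hd, hδ, ← drop_mul U hzero, mul_xr]
    congr 2
    funext i
    simp only [xr, hV₂]
    cases mul U α i <;> cases mul U β i <;> cases Z' i <;> rfl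
  have hne0 : ∃ n, dig d δ n = true := by
    by_contra h0
    simp only [not_exists, Bool.not_eq_true] at h0
    refine hβne ?_
    have hδ0 : δ = zer := ps_injective (by
      rw [ps_dig hd δ, show dig d δ = zer from funext h0, ps_zer, mul_zero])
    funext i
    have : xr α β i = false := by
      rcases Nat.lt_or_ge i k with h | h
      · exact hzero i h
      · simpa [hδ, drop, zer, Nat.sub_add_cancel h] using congrFun hδ0 (i - k)
    revert this
    simp only [xr]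
    cases α i <;> cases β i <;> simp
  have hfinal : deg U ≤ π (deg B) := deg_le_of_mul hne0
    (o₁ ▸ deg_xr_le (deg_stream_le hZΨ l₂ (a.valid Z hZE ▸ π.monotone lZ))
      (deg_stream_le hβΨ₁ l₂ hX₁))
    (o₂ ▸ deg_xr_le (deg_stream_le hZ'Ψ l₂ (a.valid Z' hZ'E ▸ π.monotone lZ'))
      (deg_stream_le hβΨ₂ l₂ hX₂))
  rw [hUdeg, ← π.symm_apply_le] at hfinal
  refine hβav (deg_le_iff.1 ?_)
  rw [hY₀, deg_rep]
  exact hfinal

end Vale.Agent.P327
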