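import Vale.Agent.P327.Reduction

/-!
# Computable operations on Cantor space
-/

namespace Vale.Agent.P327

/-- The Turing join. -/
def J (A B : Cantor) : Cantor := fun n => cond n.bodd (B n.div2) (A n.div2)

@[simp] lemma J_even (A B : Cantor) (n : ℕ) : J A B (2 * n) = A n := by
  simp [J, Nat.div2_val]

@[simp] lemma J_odd (A B : Cantor) (n : ℕ) : J A B (2 * n + 1) = B n := by
  simp [J, Nat.div2_val, Nat.add_div]

/-- Pointwise exclusive or. -/
def xr (A B : Cantor) : Cantor := fun n => xor (A n) (B n)

/-- The zero sequence. -/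
def zer : Cantor := fun _ => false

lemma xr_comm (A B : Cantor) : xr A B = xr B A := by funext n; simp [xr, Bool.xor_comm]

lemma xr_assoc (A B C : Cantor) : xr (xr A B) C = xr A (xr B C) := by funext n; simp [xr]

@[simp] lemma xr_self (A : Cantor) : xr A A = zer := by funext n; simp [xr, zer]

@[simp] lemma xr_zer (A : Cantor) : xr A zer = A := by funext n; simp [xr, zer]

@[simp] lemma zer_xr (A : Cantor) : xr zer A = A := by funext n; simp [xr, zer]

@[simp] lemma xr_cancel_right (A B : Cantor) : xr (xr A B) B = A := by simp [xr_assoc]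

@[simp] lemma xr_cancel_left (A B : Cantor) : xr A (xr A B) = B := by simp [← xr_assoc]

/-- The left shift. -/
def sh (A : Cantor) : Cantor := fun n => A (n + 1)

/-- `catS s A` is `s` followed by `A`. -/
def catS (s : List Bool) (A : Cantor) : Cantor := fun n => s.getD n (A (n - s.length))

/-- Replace the beginning of `A` by `s`. -/
def ovw (s : List Bool) (A : Cantor) : Cantor := fun n => s.getD n (A n)

/-- Zero the first `k` bits of `A` and move nothing. -/
def mask (k : ℕ) (A : Cantor) : Cantor := fun n => decide (k ≤ n) && A n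

/-- The functional reading `B (g n)`. -/
def Func.reidx (g : ℕ → ℕ) (hg : Computable g) : Func :=
  Func.ofModulus (fun n => g n + 1) (fun σ n => σ.getD (g n) false)
    (Computable.succ.comp hg)
    (((Primrec.list_getD false).to_comp.comp Computable.fst (hg.comp Computable.snd)).to₂)

lemma pre_getD (B : Cantor) {L n : ℕ} (h : n < L) : (pre B L).getD n false = B n := by
  simp [List.getD, pre, h]

lemma Func.gives_reidx {g : ℕ → ℕ} {hg : Computable g} (B : Cantor) :
    (Func.reidx g hg).Gives B (fun n => B (g n)) :=
  Func.gives_ofModulus fun _ => pre_getD B (by omega)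

/-- The identity functional. -/
def Func.id : Func := Func.reidx (fun n => n) Computable.id

lemma Func.gives_id (B : Cantor) : Func.id.Gives B B := Func.gives_reidx B

/-- The first projection of a join. -/
def Func.left : Func := Func.reidx (fun n => 2 * n)
  (Primrec.nat_mul.comp (Primrec.const 2) Primrec.id).to_comp

lemma Func.gives_left (A B : Cantor) : Func.left.Gives (J A B) A := by
  simpa [Func.left] using Func.gives_reidx (g := fun n => 2 * n)
    (hg := (Primrec.nat_mul.comp (Primrec.const 2) Primrec.id).to_comp) (J A B)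

/-- The second projection of a join. -/
def Func.right : Func := Func.reidx (fun n => 2 * n + 1)
  (Primrec.succ.comp (Primrec.nat_mul.comp (Primrec.const 2) Primrec.id)).to_comp

lemma Func.gives_right (A B : Cantor) : Func.right.Gives (J A B) B := by
  simpa [Func.right] using Func.gives_reidx (g := fun n => 2 * n + 1)
    (hg := (Primrec.succ.comp (Primrec.nat_mul.comp (Primrec.const 2) Primrec.id)).to_comp) (J A B)

/-- The shift functional. -/
def Func.shift : Func := Func.reidx (fun n => n + 1) Computable.succ

lemma Func.gives_shift (A : Cantor) : Func.shift.Gives A (sh A) := Func.gives_reidx A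

/-- The join of two functionals. -/
def Func.pair (Φ Ψ : Func) : Func where
  h σ n := cond n.bodd (Ψ.h σ n.div2) (Φ.h σ n.div2)
  comp := (Computable.cond (Computable.nat_bodd.comp Computable.snd)
    (Ψ.comp.comp Computable.fst (Computable.nat_div2.comp Computable.snd))
    (Φ.comp.comp Computable.fst (Computable.nat_div2.comp Computable.snd))).to₂
  mono {σ τ n v} hp := by
    cases n.bodd <;> exact Func.mono _ hp

lemma Func.gives_pair {Φ Ψ : Func} {C A B : Cantor} (h₁ : Φ.Gives C A) (h₂ : Ψ.Gives C B) :
    (Φ.pair Ψ).Gives C (J A B) := by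
  intro n
  simp only [Func.pair, J]
  cases n.bodd
  · exact h₁ _
  · exact h₂ _

lemma red_left (A B : Cantor) : Red A (J A B) := Func.red_of_gives (Func.gives_left A B)

lemma red_right (A B : Cantor) : Red B (J A B) := Func.red_of_gives (Func.gives_right A B)

lemma Red.join {A B C : Cantor} (h₁ : Red A C) (h₂ : Red B C) : Red (J A B) C := by
  obtain ⟨Φ, hΦ⟩ := h₁.exists_func
  obtain ⟨Ψ, hΨ⟩ := h₂.exists_func
  exact Func.red_of_gives (Func.gives_pair hΦ hΨ)

/-- The pointwise exclusive or of the two halves of a join. -/
def Func.xor2 : Func := Func.ofModulus (fun n => 2 * n + 2)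
  (fun σ n => cond (σ.getD (2 * n) false) (!σ.getD (2 * n + 1) false) (σ.getD (2 * n + 1) false))
  (Primrec.succ.comp (Primrec.succ.comp (Primrec.nat_mul.comp (Primrec.const 2) Primrec.id))).to_comp
  (by
    have h2 : Computable fun x : List Bool × ℕ => 2 * x.2 :=
      (Primrec.nat_mul.comp (Primrec.const 2) Primrec.snd).to_comp
    have ha := (Primrec.list_getD false).to_comp.comp Computable.fst h2
    have hb := (Primrec.list_getD false).to_comp.comp Computable.fst (Computable.succ.comp h2)
    exact (Computable.cond ha (Primrec.not.to_comp.comp hb) hb).to₂)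

lemma Func.gives_xor2 (A B : Cantor) : Func.xor2.Gives (J A B) (xr A B) := by
  refine Func.gives_ofModulus fun n => ?_
  rw [pre_getD _ (by omega), pre_getD _ (by omega), J_even, J_odd]
  cases h : A n <;> simp [xr, h]

/-- The exclusive or of two functionals. -/
def Func.xor (Φ Ψ : Func) : Func := (Φ.pair Ψ).then Func.xor2

lemma Func.gives_xor {Φ Ψ : Func} {C A B : Cantor} (h₁ : Φ.Gives C A) (h₂ : Ψ.Gives C B) :
    (Φ.xor Ψ).Gives C (xr A B) :=
  Func.gives_then (Func.gives_pair h₁ h₂) (Func.gives_xor2 A B)

lemma Red.xr {A B C : Cantor} (h₁ : Red A C) (h₂ : Red B C) : Red (xr A B) C := by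
  obtain ⟨Φ, hΦ⟩ := h₁.exists_func
  obtain ⟨Ψ, hΨ⟩ := h₂.exists_func
  exact Func.red_of_gives (Func.gives_xor hΦ hΨ)

/-- Prefixing by a fixed finite sequence. -/
def Func.cat (s : List Bool) : Func := Func.ofModulus (fun n => n + 1)
  (fun σ n => cond (decide (n < s.length)) (s.getD n false) (σ.getD (n - s.length) false))
  Computable.succ
  (by
    exact (Computable.cond
      (Primrec.nat_lt.decide.comp Primrec.snd (Primrec.const s.length)).to_comp
      ((Primrec.list_getD false).comp (Primrec.const s) Primrec.snd).to_comp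
      ((Primrec.list_getD false).comp Primrec.fst
        (Primrec.nat_sub.comp Primrec.snd (Primrec.const s.length))).to_comp).to₂)

lemma Func.gives_cat (s : List Bool) (A : Cantor) : (Func.cat s).Gives A (catS s A) := by
  refine Func.gives_ofModulus fun n => ?_
  by_cases h : n < s.length
  · simp [catS, h, List.getD]
  · rw [decide_eq_false h, Bool.cond_false, pre_getD A (show n - s.length < n + 1 by omega)]
    simp [catS, List.getD, List.getElem?_eq_none (not_lt.1 h)]

lemma Red.sh {A B : Cantor} (h : Red A B) : Red (sh A) B :=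
  Red.trans (Func.red_of_gives (Func.gives_shift A)) h

lemma Red.cat {A B : Cantor} (s : List Bool) (h : Red A B) : Red (catS s A) B :=
  Red.trans (Func.red_of_gives (Func.gives_cat s A)) h

/-- The constant zero functional. -/
def Func.zero : Func := Func.ofModulus (fun _ => 0) (fun _ _ => false)
  (Computable.const 0) (Computable.const false).to₂

lemma Func.gives_zero (B : Cantor) : Func.zero.Gives B zer := Func.gives_ofModulus fun _ => rfl

lemma red_catS_zer (s : List Bool) (B : Cantor) : Red (catS s zer) B :=
  Red.cat s (Func.red_of_gives (Func.gives_zero B))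

/-! ### Degrees -/

/-- The degree of `A`, as an element of `SetDegree`. -/
def deg (A : Cantor) : SetDegree := ⟨degOf A, A, rfl⟩

lemma deg_le_iff {A B : Cantor} : deg A ≤ deg B ↔ Red A B := Iff.rfl

lemma deg_eq_iff {A B : Cantor} : deg A = deg B ↔ Red A B ∧ Red B A := by
  rw [← deg_le_iff, ← deg_le_iff]; exact le_antisymm_iff

lemma exists_deg_eq (a : SetDegree) : ∃ A, deg A = a := by
  obtain ⟨_, A, rfl⟩ := a
  exact ⟨A, rfl⟩

/-- A member of a degree. -/
noncomputable def rep (a : SetDegree) : Cantor := (exists_deg_eq a).choose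

@[simp] lemma deg_rep (a : SetDegree) : deg (rep a) = a := (exists_deg_eq a).choose_spec

lemma deg_J_le_iff {A B : Cantor} {c : SetDegree} : deg (J A B) ≤ c ↔ deg A ≤ c ∧ deg B ≤ c := by
  obtain ⟨C, rfl⟩ := exists_deg_eq c
  exact ⟨fun h => ⟨(red_left A B).trans h, (red_right A B).trans h⟩, fun h => Red.join h.1 h.2⟩

lemma deg_left_le (A B : Cantor) : deg A ≤ deg (J A B) := red_left A B

lemma deg_right_le (A B : Cantor) : deg B ≤ deg (J A B) := red_right A B

lemma deg_xr_le {A B : Cantor} {c : SetDegree} (h₁ : deg A ≤ c) (h₂ : deg B ≤ c) :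
    deg (xr A B) ≤ c := by
  obtain ⟨C, rfl⟩ := exists_deg_eq c
  exact Red.xr h₁ h₂

end Vale.Agent.P327
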