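import Vale.Agent.P327.Functional

/-!
# Turing reducibility is computation by a continuous computable functional
-/

namespace Vale.Agent.P327

/-- The first answer of `g` on an initial segment of `σ` of length `< k`. -/
def search (g : List Bool → ℕ → Option Bool) (σ : List Bool) (n : ℕ) (k : ℕ) : Option Bool :=
  Nat.rec (none : Option Bool) (fun j acc => acc <|> g (σ.take j) n) k

@[simp] lemma search_zero (g : List Bool → ℕ → Option Bool) (σ : List Bool) (n : ℕ) :
    search g σ n 0 = none := rfl

lemma search_succ (g : List Bool → ℕ → Option Bool) (σ : List Bool) (n k : ℕ) :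
    search g σ n (k + 1) = (search g σ n k <|> g (σ.take k) n) := rfl

lemma search_mono_len (g : List Bool → ℕ → Option Bool) (σ : List Bool) (n : ℕ) {v : Bool}
    {k m : ℕ} (hkm : k ≤ m) (h : search g σ n k = some v) : search g σ n m = some v := by
  induction m, hkm using Nat.le_induction with
  | base => exact h
  | succ m _ ih => rw [search_succ, ih]; rfl

lemma search_congr (g : List Bool → ℕ → Option Bool) {σ τ : List Bool} (hp : σ <+: τ) (n : ℕ) :
    ∀ k, k ≤ σ.length + 1 → search g σ n k = search g τ n k
  | 0, _ => rfl
  | k + 1, hk => by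
    obtain ⟨t, rfl⟩ := hp
    rw [search_succ, search_succ, search_congr g (List.prefix_append σ t) n k (by omega),
      List.take_append_of_le_length (by omega)]

lemma search_eq_some (g : List Bool → ℕ → Option Bool) (σ : List Bool) (n : ℕ) {v : Bool} :
    ∀ k, search g σ n k = some v → ∃ j < k, g (σ.take j) n = some v
  | 0, h => by simp at h
  | k + 1, h => by
    cases hs : search g σ n k with
    | some w =>
      rw [search_succ, hs] at h
      obtain ⟨j, hj, hj'⟩ := search_eq_some g σ n k (hs.trans h)
      exact ⟨j, by omega, hj'⟩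
    | none =>
      rw [search_succ, hs] at h
      exact ⟨k, by omega, h⟩

lemma search_isSome (g : List Bool → ℕ → Option Bool) (σ : List Bool) (n : ℕ) {v : Bool}
    {j k : ℕ} (hjk : j < k) (h : g (σ.take j) n = some v) : ∃ w, search g σ n k = some w := by
  cases hs : search g σ n j with
  | some w => exact ⟨w, search_mono_len g σ n hjk.le hs⟩
  | none =>
    exact ⟨v, search_mono_len g σ n (Nat.succ_le_of_lt hjk) (by
      rw [search_succ, hs, h]; rfl)⟩

/-- The functional searching the shortest initial segment on which `g` answers. -/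
def Func.ofSearch (g : List Bool → ℕ → Option Bool) (hg : Computable₂ g) : Func where
  h σ n := search g σ n (σ.length + 1)
  comp := by
    refine (Computable.nat_rec (h := fun (q : List Bool × ℕ) (p : ℕ × Option Bool) =>
        p.2 <|> g (q.1.take p.1) q.2)
      (Computable.succ.comp (Computable.list_length.comp Computable.fst))
      (Computable.const none) ?_).of_eq fun q => rfl
    exact (Primrec.option_orElse.to_comp.comp (Computable.snd.comp Computable.snd)
      (hg.comp
        (Primrec.list_take.to_comp.comp (Computable.fst.comp Computable.snd)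
          (Computable.fst.comp Computable.fst))
        (Computable.snd.comp Computable.fst))).to₂
  mono {σ τ n v} hp h :=
    search_mono_len g τ n (k := σ.length + 1) (by have := hp.length_le; omega)
      (by rw [← search_congr g hp n _ le_rfl]; exact h)

lemma Func.gives_ofSearch {g : List Bool → ℕ → Option Bool} {hg : Computable₂ g} {B A : Cantor}
    (hsound : ∀ n L v, g (pre B L) n = some v → v = A n)
    (hdef : ∀ n, ∃ L v, g (pre B L) n = some v) : (Func.ofSearch g hg).Gives B A := by
  intro n
  obtain ⟨L, v, hv⟩ := hdef n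
  obtain ⟨w, hw⟩ := search_isSome g (pre B L) n (j := L) (k := L + 1) (by omega)
    (v := v) (by rwa [pre_take, min_self])
  obtain ⟨j, hj, hj'⟩ := search_eq_some g _ _ _ hw
  refine ⟨L, ?_⟩
  rw [pre_take, Nat.min_eq_left (by omega)] at hj'
  show search g (pre B L) n ((pre B L).length + 1) = some (A n)
  rw [length_pre, hw, hsound n j w hj']

/-! ### From a functional to a reduction -/

lemma pre_succ (B : Cantor) (L : ℕ) : pre B (L + 1) = pre B L ++ [B L] := by
  simp [pre, List.range_succ]

/-- Nat-level total functions applied in a reduction. -/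
lemma recursiveIn_of_computable {O : Set (ℕ →. ℕ)} {f : ℕ → ℕ} (hf : Computable f) :
    Nat.RecursiveIn O fun n => Part.some (f n) :=
  (Partrec.nat_iff.1 hf.partrec).recursiveIn.of_eq fun _ => rfl

lemma prefix_recursiveIn (B : Cantor) :
    Nat.RecursiveIn {charFn B} fun p => Part.some
      (Encodable.encode (pre B p.unpair.2)) := by
  have hi : Computable fun p : ℕ => p.unpair.2.unpair.1 :=
    (Primrec.fst.comp (Primrec.unpair.comp (Primrec.snd.comp Primrec.unpair))).to_comp
  have hy : Nat.RecursiveIn {charFn B} fun p => Part.some (cond (B p.unpair.2.unpair.1) 1 0) :=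
    ((Nat.RecursiveIn.oracle (charFn B) (Set.mem_singleton _)).comp
      (recursiveIn_of_computable hi)).of_eq fun p => Part.bind_some _ _
  have hz : Nat.RecursiveIn {charFn B} fun p =>
      Part.some (Nat.pair p.unpair.2.unpair.2 (cond (B p.unpair.2.unpair.1) 1 0)) :=
    ((recursiveIn_of_computable
      ((Primrec.snd.comp (Primrec.unpair.comp (Primrec.snd.comp Primrec.unpair))).to_comp)).pair
        hy).of_eq fun p => by simp [Seq.seq]
  have happ : Computable fun q : ℕ => Encodable.encode
      (((Encodable.decode (α := List Bool) q.unpair.1).getD []) ++ [decide (q.unpair.2 = 1)]) := by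
    have h1 : Computable fun q : ℕ => (Encodable.decode (α := List Bool) q.unpair.1).getD [] :=
      Computable.option_getD
        (Computable.decode.comp (Computable.fst.comp Computable.unpair)) (Computable.const [])
    have h2 : Computable fun q : ℕ => [decide (q.unpair.2 = 1)] :=
      Computable.list_cons.comp ((Primrec.eq.decide.comp (Primrec.snd.comp Primrec.unpair)
        (Primrec.const 1)).to_comp) (Computable.const [])
    exact Computable.encode.comp (Computable.list_append.comp h1 h2)
  have hstep : Nat.RecursiveIn {charFn B} fun p => Part.some (Encodable.encode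
      (((Encodable.decode (α := List Bool) p.unpair.2.unpair.2).getD []) ++
        [B p.unpair.2.unpair.1])) :=
    ((recursiveIn_of_computable happ).comp hz).of_eq fun p => by
      cases B p.unpair.2.unpair.1 <;> simp
  refine (Nat.RecursiveIn.prec
    (recursiveIn_of_computable (Computable.const (Encodable.encode ([] : List Bool)))) hstep).of_eq
    fun p => ?_
  simp only
  induction p.unpair.2 with
  | zero => simp [pre]
  | succ k ih =>
    simp only [ih]
    simp [pre_succ, Encodable.encodek]

lemma Func.red_of_gives {Φ : Func} {B A : Cantor} (hg : Φ.Gives B A) : Red A B := by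
  let val : List Bool → ℕ → ℕ := fun σ n => cond ((Φ.h σ n).getD false) 1 0
  let test : List Bool → ℕ → ℕ := fun σ n => cond (Φ.h σ n).isSome 0 1
  let dec : ℕ → List Bool := fun c => (Encodable.decode (α := List Bool) c).getD []
  have hdec : Computable dec := Computable.option_getD Computable.decode (Computable.const [])
  have hval : Computable fun q : ℕ => val (dec q.unpair.2) q.unpair.1 := by
    refine Computable.cond (Computable.option_getD (Φ.comp.comp
      (hdec.comp (Computable.snd.comp Computable.unpair))
      (Computable.fst.comp Computable.unpair)) (Computable.const false))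
      (Computable.const 1) (Computable.const 0)
  have htest : Computable fun q : ℕ => test (dec q.unpair.2) q.unpair.1 := by
    refine Computable.cond (Primrec.option_isSome.to_comp.comp (Φ.comp.comp
      (hdec.comp (Computable.snd.comp Computable.unpair))
      (Computable.fst.comp Computable.unpair))) (Computable.const 0) (Computable.const 1)
  have hpre := prefix_recursiveIn B
  have hnp : Nat.RecursiveIn {charFn B} fun p =>
      Part.some (Nat.pair p.unpair.1 (Encodable.encode (pre B p.unpair.2))) :=
    ((Nat.RecursiveIn.left).pair hpre).of_eq fun p => by simp [Seq.seq]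
  have ht : Nat.RecursiveIn {charFn B} fun p =>
      Part.some (test (pre B p.unpair.2) p.unpair.1) :=
    ((recursiveIn_of_computable htest).comp hnp).of_eq fun p => by
      simp [dec, Encodable.encodek]
  have hv : Nat.RecursiveIn {charFn B} fun p =>
      Part.some (val (pre B p.unpair.2) p.unpair.1) :=
    ((recursiveIn_of_computable hval).comp hnp).of_eq fun p => by
      simp [dec, Encodable.encodek]
  have hid : Nat.RecursiveIn {charFn B} fun n => Part.some n :=
    recursiveIn_of_computable Computable.id
  refine RecursiveIn.iff_nat.2 ?_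
  refine (hv.comp (hid.pair (Nat.RecursiveIn.rfind ht))).of_eq fun n => Part.eq_some_iff.2 ?_
  obtain ⟨L, hL⟩ := hg n
  have hdom : (Nat.rfind fun k =>
      (fun m => decide (m = 0)) <$> Part.some (test (pre B (Nat.pair n k).unpair.2)
        (Nat.pair n k).unpair.1)).Dom := by
    exact Nat.rfind_dom.2 ⟨L, Part.mem_map_iff _ |>.2 ⟨0, Part.mem_some_iff.2
      (by simp [test, hL]), by simp⟩, fun {m} _ => trivial⟩
  obtain ⟨k, hk⟩ := Part.dom_iff_mem.1 hdom
  have hk' := Nat.rfind_spec hk
  simp [test] at hk'
  obtain ⟨w, hw⟩ : ∃ w, Φ.h (pre B k) n = some w := by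
    revert hk'
    cases Φ.h (pre B k) n <;> simp
  have hwA : w = A n := by
    have h1 := Φ.mono (pre_prefix B (le_max_left k L)) hw
    rw [Φ.mono (pre_prefix B (le_max_right k L)) hL] at h1
    exact (Option.some.inj h1).symm
  refine Part.mem_bind_iff.2 ⟨Nat.pair n k, ?_, ?_⟩
  · simp only [Seq.seq, Part.map_some, Part.bind_some, Part.map_eq_map]
    exact Part.mem_map _ hk
  · simp [val, hw, hwA]

/-! ### From a reduction to a functional -/

/-- `q` approximates the partial function `f` along the oracle `B`. -/
structure Approx (B : Cantor) (f : ℕ →. ℕ) where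
  q : List Bool → ℕ → Option ℕ
  comp : Computable₂ q
  sound : ∀ L n v, q (pre B L) n = some v → v ∈ f n
  complete : ∀ n v, v ∈ f n → ∃ L₀, ∀ L, L₀ ≤ L → q (pre B L) n = some v

/-- The number of leading arguments at which `q` gives a nonzero answer, looking up to `L`. -/
def countNonzero (q : List Bool → ℕ → Option ℕ) (σ : List Bool) (a : ℕ) (L : ℕ) : ℕ :=
  Nat.rec 0 (fun k acc => cond
    (decide (acc = k) && ((q σ (Nat.pair a k)).map fun v => decide (v ≠ 0)).getD false)
    (k + 1) acc) L

lemma countNonzero_spec (q : List Bool → ℕ → Option ℕ) (σ : List Bool) (a : ℕ) :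
    ∀ L, countNonzero q σ a L ≤ L ∧
      (∀ k < countNonzero q σ a L, ∃ v, q σ (Nat.pair a k) = some v ∧ v ≠ 0) ∧
      (countNonzero q σ a L < L →
        ∀ v, q σ (Nat.pair a (countNonzero q σ a L)) = some v → v = 0)
  | 0 => ⟨le_rfl, fun k hk => absurd hk (Nat.not_lt_zero k), fun h => absurd h (Nat.not_lt_zero _)⟩
  | L + 1 => by
    obtain ⟨h1, h2, h3⟩ := countNonzero_spec q σ a L
    have hrec : countNonzero q σ a (L + 1) = cond (decide (countNonzero q σ a L = L) &&
        ((q σ (Nat.pair a L)).map fun v => decide (v ≠ 0)).getD false)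
        (L + 1) (countNonzero q σ a L) := rfl
    by_cases hc : countNonzero q σ a L = L
    · cases hv : q σ (Nat.pair a L) with
      | none =>
        rw [hrec]
        simp only [hc, hv]
        simpa [hc, hv] using fun k hk => h2 k (hc.symm ▸ hk)
      | some v =>
        by_cases hv0 : v = 0
        · rw [hrec]
          simpa [hc, hv, hv0] using fun k hk => h2 k (hc.symm ▸ hk)
        · have hnew : countNonzero q σ a (L + 1) = L + 1 := by simp [hrec, hc, hv, hv0]
          rw [hnew]
          refine ⟨le_rfl, ?_, fun h => absurd h (lt_irrefl _)⟩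
          intro k hk
          rcases Nat.lt_or_ge k L with hkL | hkL
          · exact h2 k (hc.symm ▸ hkL)
          · obtain rfl : k = L := by omega
            exact ⟨v, hv, hv0⟩
    · rw [hrec]
      simp only [hc, decide_false, Bool.false_and, cond_false]
      exact ⟨by omega, h2, fun _ => h3 (by omega)⟩

lemma computable_countNonzero {q : List Bool → ℕ → Option ℕ} (hq : Computable₂ q) :
    Computable fun x : List Bool × ℕ => countNonzero q x.1 x.2 x.1.length := by
  refine (Computable.nat_rec (h := fun (x : List Bool × ℕ) (p : ℕ × ℕ) => cond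
      (decide (p.2 = p.1) && ((q x.1 (Nat.pair x.2 p.1)).map fun v => decide (v ≠ 0)).getD false)
      (p.1 + 1) p.2) (Computable.list_length.comp Computable.fst) (Computable.const 0)
    ?_).of_eq fun x => rfl
  have hk : Computable fun y : (List Bool × ℕ) × ℕ × ℕ => y.2.1 :=
    Computable.fst.comp Computable.snd
  have hne : Computable fun v : ℕ => decide (v ≠ 0) :=
    (Primrec.nat_lt.decide.comp (Primrec.const 0) Primrec.id).to_comp.of_eq fun v => by
      simp [Nat.pos_iff_ne_zero]
  have hpair : Computable fun y : (List Bool × ℕ) × ℕ × ℕ => Nat.pair y.1.2 y.2.1 :=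
    Primrec₂.natPair.to_comp.comp (Computable.snd.comp Computable.fst) hk
  have hqq : Computable fun y : (List Bool × ℕ) × ℕ × ℕ => q y.1.1 (Nat.pair y.1.2 y.2.1) :=
    hq.comp (Computable.fst.comp Computable.fst) hpair
  have hmap : Computable fun y : (List Bool × ℕ) × ℕ × ℕ =>
      (q y.1.1 (Nat.pair y.1.2 y.2.1)).map fun v => decide (v ≠ 0) :=
    Computable.option_map hqq (hne.comp Computable.snd).to₂
  have heq : Computable fun y : (List Bool × ℕ) × ℕ × ℕ => decide (y.2.2 = y.2.1) :=
    (Primrec.eq.decide.comp (Primrec.snd.comp Primrec.snd)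
      (Primrec.fst.comp Primrec.snd)).to_comp
  exact (Computable.cond (Primrec.and.to_comp.comp heq
    (Computable.option_getD hmap (Computable.const false)))
    (Computable.succ.comp hk) (Computable.snd.comp Computable.snd)).to₂

/-- The approximation used for unbounded search. -/
def rfindApprox (q : List Bool → ℕ → Option ℕ) (σ : List Bool) (a : ℕ) : Option ℕ :=
  cond (decide (q σ (Nat.pair a (countNonzero q σ a σ.length)) = some 0))
    (some (countNonzero q σ a σ.length)) none

lemma nonempty_approx {B : Cantor} {f : ℕ →. ℕ} (hf : Nat.RecursiveIn {charFn B} f) :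
    Nonempty (Approx B f) := by
  induction hf with
  | zero =>
    exact ⟨⟨fun _ _ => some 0, Computable.const _, fun _ _ _ h => by cases h; exact ⟨trivial, rfl⟩,
      fun _ _ h => ⟨0, fun _ _ => congrArg some (Part.mem_some_iff.1 h).symm⟩⟩⟩
  | succ =>
    exact ⟨⟨fun _ n => some (n + 1), (Computable.option_some.comp
      (Computable.succ.comp Computable.snd)).to₂, fun _ n v h => by simp_all,
      fun n v h => ⟨0, fun _ _ => by simp_all⟩⟩⟩
  | left =>
    exact ⟨⟨fun _ n => some n.unpair.1, (Computable.option_some.comp
      (Computable.fst.comp (Computable.unpair.comp Computable.snd))).to₂,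
      fun _ n v h => by simp_all, fun n v h => ⟨0, fun _ _ => by simp_all⟩⟩⟩
  | right =>
    exact ⟨⟨fun _ n => some n.unpair.2, (Computable.option_some.comp
      (Computable.snd.comp (Computable.unpair.comp Computable.snd))).to₂,
      fun _ n v h => by simp_all, fun n v h => ⟨0, fun _ _ => by simp_all⟩⟩⟩
  | oracle g hg =>
    obtain rfl : g = charFn B := hg
    refine ⟨⟨fun σ n => (σ[n]?).map fun b => cond b 1 0, ?_, ?_, ?_⟩⟩
    · exact (Computable.option_map (Computable.list_getElem?.comp Computable.fst Computable.snd)
        (Computable.cond Computable.snd (Computable.const 1) (Computable.const 0)).to₂).to₂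
    · intro L n v h
      by_cases hn : n < L <;> simp [charFn, pre, hn] at h ⊢
      exact h.symm
    · intro n v h
      refine ⟨n + 1, fun L hL => ?_⟩
      simp [charFn] at h
      simp [Nat.lt_of_succ_le hL, h, pre]
  | pair _ _ ihf ihh =>
    obtain ⟨F⟩ := ihf
    obtain ⟨H⟩ := ihh
    refine ⟨⟨fun σ n => (F.q σ n).bind fun a => (H.q σ n).map fun b => Nat.pair a b, ?_, ?_, ?_⟩⟩
    · exact (Computable.option_bind (F.comp.comp Computable.fst Computable.snd)
        (Computable.option_map (H.comp.comp (Computable.fst.comp Computable.fst)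
          (Computable.snd.comp Computable.fst))
          (Primrec₂.natPair.to_comp.comp (Computable.snd.comp Computable.fst)
            Computable.snd).to₂).to₂).to₂
    · intro L n v h
      simp only [Option.bind_eq_some_iff, Option.map_eq_some_iff] at h
      obtain ⟨a, ha, b, hb, rfl⟩ := h
      simp only [Seq.seq, Part.map_eq_map, Part.mem_bind_iff, Part.mem_map_iff]
      exact ⟨_, ⟨a, F.sound _ _ _ ha, rfl⟩, b, H.sound _ _ _ hb, rfl⟩
    · intro n v h
      simp only [Seq.seq, Part.map_eq_map, Part.mem_bind_iff, Part.mem_map_iff] at h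
      obtain ⟨_, ⟨a, ha, rfl⟩, b, hb, rfl⟩ := h
      obtain ⟨L₁, h₁⟩ := F.complete _ _ ha
      obtain ⟨L₂, h₂⟩ := H.complete _ _ hb
      exact ⟨max L₁ L₂, fun L hL => by simp [h₁ L (by omega), h₂ L (by omega)]⟩
  | comp _ _ ihf ihh =>
    obtain ⟨F⟩ := ihf
    obtain ⟨H⟩ := ihh
    refine ⟨⟨fun σ n => (H.q σ n).bind (F.q σ), ?_, ?_, ?_⟩⟩
    · exact (Computable.option_bind (H.comp.comp Computable.fst Computable.snd)
        (F.comp.comp (Computable.fst.comp Computable.fst) Computable.snd).to₂).to₂
    · intro L n v h
      simp only [Option.bind_eq_some_iff] at h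
      obtain ⟨a, ha, hb⟩ := h
      exact Part.mem_bind_iff.2 ⟨a, H.sound _ _ _ ha, F.sound _ _ _ hb⟩
    · intro n v h
      obtain ⟨a, ha, hb⟩ := Part.mem_bind_iff.1 h
      obtain ⟨L₁, h₁⟩ := F.complete _ _ hb
      obtain ⟨L₂, h₂⟩ := H.complete _ _ ha
      exact ⟨max L₁ L₂, fun L hL => by simp [h₁ L (by omega), h₂ L (by omega)]⟩
  | prec _ _ ihf ihh =>
    obtain ⟨F⟩ := ihf
    obtain ⟨H⟩ := ihh
    refine ⟨⟨fun σ p => Nat.rec (F.q σ p.unpair.1)
      (fun y IH => IH.bind fun i => H.q σ (Nat.pair p.unpair.1 (Nat.pair y i))) p.unpair.2,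
      ?_, ?_, ?_⟩⟩
    · have ha : Computable fun x : List Bool × ℕ => x.2.unpair.1 :=
        Computable.fst.comp (Computable.unpair.comp Computable.snd)
      refine (Computable.nat_rec (h := fun (x : List Bool × ℕ) (z : ℕ × Option ℕ) =>
          z.2.bind fun i => H.q x.1 (Nat.pair x.2.unpair.1 (Nat.pair z.1 i)))
        (Computable.snd.comp (Computable.unpair.comp Computable.snd))
        (F.comp.comp Computable.fst ha) ?_).to₂
      exact (Computable.option_bind (Computable.snd.comp Computable.snd)
        (H.comp.comp (Computable.fst.comp (Computable.fst.comp Computable.fst))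
          (Primrec₂.natPair.to_comp.comp (ha.comp (Computable.fst.comp Computable.fst))
            (Primrec₂.natPair.to_comp.comp
              (Computable.fst.comp (Computable.snd.comp Computable.fst))
              Computable.snd))).to₂).to₂
    · intro L p
      simp only
      induction p.unpair.2 with
      | zero => exact fun v h => F.sound _ _ _ h
      | succ k ih =>
        intro v h
        obtain ⟨i, hi, hv⟩ := Option.bind_eq_some_iff.1 h
        exact Part.mem_bind_iff.2 ⟨i, ih i hi, H.sound _ _ _ hv⟩
    · intro p
      simp only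
      induction p.unpair.2 with
      | zero => exact fun v h => F.complete _ _ h
      | succ k ih =>
        intro v h
        obtain ⟨i, hi, hv⟩ := Part.mem_bind_iff.1 h
        obtain ⟨L₁, h₁⟩ := ih i hi
        obtain ⟨L₂, h₂⟩ := H.complete _ _ hv
        refine ⟨max L₁ L₂, fun L hL => ?_⟩
        simp only [h₁ L (by omega), Option.bind_some]
        exact h₂ L (by omega)
  | @rfind f' _ ihf =>
    obtain ⟨F⟩ := ihf
    refine ⟨⟨rfindApprox F.q, ?_, ?_, ?_⟩⟩
    · have hk := computable_countNonzero F.comp
      exact (Computable.cond ((Primrec.eq (α := Option ℕ)).decide.to_comp.comp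
        (F.comp.comp Computable.fst (Primrec₂.natPair.to_comp.comp Computable.snd hk))
        (Computable.const (some 0))) (Computable.option_some.comp hk)
        (Computable.const none)).to₂
    · intro L a v h
      obtain ⟨h1, h2, h3⟩ := countNonzero_spec F.q (pre B L) a (pre B L).length
      by_cases hc : F.q (pre B L)
          (Nat.pair a (countNonzero F.q (pre B L) a (pre B L).length)) = some 0
      · simp only [rfindApprox, hc, decide_true, cond_true, Option.some.injEq] at h
        subst h
        refine Nat.mem_rfind.2 ⟨?_, fun {m} hm => ?_⟩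
        · exact Part.mem_map_iff _ |>.2 ⟨0, F.sound _ _ _ hc, by simp⟩
        · obtain ⟨w, hw, hw0⟩ := h2 m hm
          exact Part.mem_map_iff _ |>.2 ⟨w, F.sound _ _ _ hw, by simp [hw0]⟩
      · rw [rfindApprox, decide_eq_false hc] at h
        simp at h
    · intro a k hk
      obtain ⟨hk0, hkm⟩ := Nat.mem_rfind.1 hk
      obtain ⟨v0, hv0, hv0'⟩ := Part.mem_map_iff _ |>.1 hk0
      have hv00 : v0 = 0 := by simpa using hv0'
      subst hv00
      have hall : ∀ m, m ≤ k → ∃ v L₀, (m < k → v ≠ 0) ∧ (m = k → v = 0) ∧
          ∀ L, L₀ ≤ L → F.q (pre B L) (Nat.pair a m) = some v := by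
        intro m hm
        rcases Nat.lt_or_ge m k with hlt | hge
        · obtain ⟨v, hv, hv'⟩ := Part.mem_map_iff _ |>.1 (hkm hlt)
          obtain ⟨L₀, hL₀⟩ := F.complete _ _ hv
          exact ⟨v, L₀, fun _ => by simpa using hv', fun h => absurd h (by omega), hL₀⟩
        · obtain rfl : m = k := by omega
          obtain ⟨L₀, hL₀⟩ := F.complete _ _ hv0
          exact ⟨0, L₀, fun h => absurd h (by omega), fun _ => rfl, hL₀⟩
      choose! v L₀ hvne hveq hL₀ using hall
      refine ⟨max (k + 1) ((Finset.range (k + 1)).sup L₀), fun L hL => ?_⟩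
      have hq : ∀ m ≤ k, F.q (pre B L) (Nat.pair a m) = some (v m) := fun m hm =>
        hL₀ m hm L (le_trans (le_trans (Finset.le_sup (f := L₀)
          (Finset.mem_range.2 (by omega))) (le_max_right _ _)) hL)
      obtain ⟨h1, h2, h3⟩ := countNonzero_spec F.q (pre B L) a (pre B L).length
      rw [length_pre] at h1 h2 h3
      have hkk : countNonzero F.q (pre B L) a L = k := by
        rcases lt_trichotomy (countNonzero F.q (pre B L) a L) k with h | h | h
        · exact absurd (h3 (by omega) _ (hq _ h.le)) (hvne _ h.le h)
        · exact h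
        · obtain ⟨w, hw, hw0⟩ := h2 k h
          rw [hq k le_rfl, hveq k le_rfl rfl] at hw
          exact absurd (Option.some.inj hw).symm hw0
      simp [rfindApprox, hkk, hq k le_rfl, hveq k le_rfl rfl]

lemma Red.exists_func {A B : Cantor} (h : Red A B) : ∃ Φ : Func, Φ.Gives B A := by
  obtain ⟨F⟩ := nonempty_approx (RecursiveIn.iff_nat.1 h)
  refine ⟨Func.ofSearch (fun σ n => (F.q σ n).map fun v => decide (v = 1)) ?_,
    Func.gives_ofSearch ?_ ?_⟩
  · exact (Computable.option_map (F.comp.comp Computable.fst Computable.snd)
      ((Primrec.eq (α := ℕ)).decide.to_comp.comp Computable.snd (Computable.const 1)).to₂).to₂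
  · intro n L v hv
    obtain ⟨w, hw, rfl⟩ := Option.map_eq_some_iff.1 hv
    have := F.sound _ _ _ hw
    simp [charFn] at this
    subst this
    cases A n <;> simp
  · intro n
    obtain ⟨L, hL⟩ := F.complete n (cond (A n) 1 0) (by simp [charFn])
    exact ⟨L, _, by simp [hL L le_rfl]; rfl⟩

lemma red_iff {A B : Cantor} : Red A B ↔ ∃ Φ : Func, Φ.Gives B A :=
  ⟨Red.exists_func, fun ⟨_, h⟩ => Func.red_of_gives h⟩

lemma countable_red (B : Cantor) : {A : Cantor | Red A B}.Countable := by
  have : {A : Cantor | Red A B} ⊆ ⋃ Φ : Func, {A | Φ.Gives B A} := fun A hA => by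
    obtain ⟨Φ, hΦ⟩ := Red.exists_func hA
    exact Set.mem_iUnion.2 ⟨Φ, hΦ⟩
  refine Set.Countable.mono this (Set.countable_iUnion fun Φ => ?_)
  exact Set.Subsingleton.countable fun A hA A' hA' => Func.gives_unique hA hA'

end Vale.Agent.P327
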