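import Vale.Agent.P327.Main
import Vale.Agent.P327.Bound

/-!
# Rigidity of the Turing degrees
-/

namespace Vale.Agent.P327

/-- Every automorphism of the Turing degrees of sets fixes every degree. -/
theorem rigidity (π : SetDegree ≃o SetDegree) (a : SetDegree) : π a = a := by
  obtain ⟨F, hFm, hF⟩ := exists_borel_family π
  obtain ⟨G, hGm, hG⟩ := exists_borel_family π.symm
  have h₁ : π.symm a ≤ a := symm_le π hFm hF hGm hG a
  have h₂ : π a ≤ a := by
    simpa using symm_le π.symm hGm hG hFm (by simpa using hF) a
  exact le_antisymm h₂ (π.symm_apply_le.1 h₁)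

end Vale.Agent.P327
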