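import Vale.Agent.P327.Category

/-!
# Sequences of bits as power series over the field with two elements
-/

namespace Vale.Agent.P327

open Filter Set Topology

/-- A bit as an element of the field with two elements. -/
def bz (b : Bool) : ZMod 2 := cond b 1 0

lemma bz_injective : Function.Injective bz := by
  intro a b; cases a <;> cases b <;> simp [bz]

lemma bz_xor (a b : Bool) : bz (xor a b) = bz a + bz b := by
  cases a <;> cases b <;> simp [bz] <;> decide

lemma bz_and (a b : Bool) : bz (a && b) = bz a * bz b := by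
  cases a <;> cases b <;> simp [bz]

/-- A sequence of bits as a power series. -/
noncomputable def ps (a : Cantor) : PowerSeries (ZMod 2) := PowerSeries.mk fun n => bz (a n)

lemma ps_injective : Function.Injective ps := fun a b h => funext fun n =>
  bz_injective (by simpa [ps] using congrArg (PowerSeries.coeff n) h)

lemma ps_xr (a b : Cantor) : ps (xr a b) = ps a + ps b := by
  ext n; simp [ps, xr, bz_xor]

lemma ps_zer : ps zer = 0 := by ext n; simp [ps, zer, bz]

lemma ps_ne_zero {a : Cantor} {n : ℕ} (h : a n = true) : ps a ≠ 0 := fun e => by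
  simpa [ps, bz, h] using congrArg (PowerSeries.coeff n) e

/-- The product of two sequences read as power series. -/
def mul (a b : Cantor) : Cantor := fun n =>
  Nat.rec false (fun i acc => xor acc (a i && b (n - i))) (n + 1)

lemma ps_mul (a b : Cantor) : ps (mul a b) = ps a * ps b := by
  ext n
  rw [PowerSeries.coeff_mul, Finset.Nat.sum_antidiagonal_eq_sum_range_succ
    (fun i j => PowerSeries.coeff i (ps a) * PowerSeries.coeff j (ps b))]
  simp only [ps, PowerSeries.coeff_mk, mul]
  have key : ∀ m, bz (Nat.rec false (fun i acc => xor acc (a i && b (n - i))) m) =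
      ∑ k ∈ Finset.range m, bz (a k) * bz (b (n - k)) := by
    intro m
    induction m with
    | zero => rfl
    | succ m ih => rw [Finset.sum_range_succ, ← ih, ← bz_and, ← bz_xor]
  exact key (n + 1)

/-- Remove the first `k` bits. -/
def drop (k : ℕ) (a : Cantor) : Cantor := fun n => a (n + k)

lemma ps_eq_X_pow_mul {k : ℕ} {a : Cantor} (h : ∀ i < k, a i = false) :
    ps a = PowerSeries.X ^ k * ps (drop k a) := by
  ext n
  rw [PowerSeries.coeff_X_pow_mul']
  split_ifs with hk
  · simp [ps, drop, Nat.sub_add_cancel hk]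
  · simp [ps, h n (not_le.1 hk), bz]

/-- One step of the division of `δ` by `d`. -/
def step (d δ : Cantor) : Cantor := sh (xr δ (cond (δ 0) d zer))

/-- The quotient of `δ` by `d`, for `d 0 = true`. -/
def dig (d δ : Cantor) : Cantor := fun n => (step d)^[n] δ 0

lemma dig_succ (d δ : Cantor) (n : ℕ) : dig d δ (n + 1) = dig d (step d δ) n := by
  simp [dig, Function.iterate_succ_apply]

lemma ps_eq_cons (a : Cantor) :
    ps a = PowerSeries.C (bz (a 0)) + PowerSeries.X * ps (sh a) := by
  ext n
  cases n with
  | zero => simp [ps]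
  | succ n => simp [ps, sh, PowerSeries.coeff_succ_X_mul, PowerSeries.coeff_C]

lemma ps_dig {d : Cantor} (hd : d 0 = true) (δ : Cantor) : ps δ = ps d * ps (dig d δ) := by
  ext n
  induction n generalizing δ with
  | zero =>
    simp [ps, PowerSeries.coeff_mul, bz, hd, dig]
  | succ n ih =>
    have h1 : ps (dig d δ) =
        PowerSeries.C (bz (δ 0)) + PowerSeries.X * ps (dig d (step d δ)) := by
      rw [ps_eq_cons (dig d δ)]
      congr 3
    rw [h1, mul_add, mul_left_comm, map_add, PowerSeries.coeff_succ_X_mul, ← ih (step d δ),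
      PowerSeries.coeff_mul_C]
    cases hδ : δ 0 <;> simp [ps, step, sh, hδ, bz_xor, bz, xr, zer]
    cases δ (n + 1) <;> cases d (n + 1) <;> decide

lemma dig_eq {d δ o : Cantor} (hd : d 0 = true) (h : ps δ = ps d * ps o) : dig d δ = o :=
  ps_injective (mul_left_cancel₀ (ps_ne_zero hd) ((ps_dig hd δ).symm.trans h))

lemma dig_mul {d : Cantor} (hd : d 0 = true) (u δ : Cantor) :
    dig d (mul u δ) = mul u (dig d δ) := by
  refine dig_eq hd ?_
  rw [ps_mul, ps_mul, ps_dig hd δ]
  rw [ps_dig hd δ |>.symm]
  conv_lhs => rw [ps_dig hd δ]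
  ring

lemma drop_mul {k : ℕ} {a : Cantor} (u : Cantor) (h : ∀ i < k, a i = false) :
    drop k (mul u a) = mul u (drop k a) := by
  have h' : ∀ i < k, mul u a i = false := by
    intro i hi
    refine bz_injective ?_
    have : ps (mul u a) = PowerSeries.X ^ k * (ps u * ps (drop k a)) := by
      rw [ps_mul, ps_eq_X_pow_mul h, mul_left_comm]
    have h2 := congrArg (PowerSeries.coeff i) this
    rw [PowerSeries.coeff_X_pow_mul', if_neg (not_le.2 hi)] at h2
    simpa [ps, bz] using h2
  refine ps_injective (mul_left_cancel₀ (pow_ne_zero k PowerSeries.X_ne_zero) ?_)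
  rw [← ps_eq_X_pow_mul h', ps_mul, ps_mul, ps_eq_X_pow_mul h, mul_left_comm]

lemma mul_xr (u a b : Cantor) : mul u (xr a b) = xr (mul u a) (mul u b) :=
  ps_injective (by rw [ps_mul, ps_xr, ps_xr, ps_mul, ps_mul, mul_add])

/-! ### Continuity -/

lemma continuous_of_cy {F : Cantor → Cantor}
    (h : ∀ L x y, y ∈ cy x L → F y ∈ cy (F x) L) : Continuous F := by
  refine continuous_pi fun n => continuous_discrete_rng.2 fun b => ?_
  refine isOpen_iff_mem_nhds.2 fun x hx => ?_
  refine Filter.mem_of_superset ((isOpen_cy x (n + 1)).mem_nhds (mem_cy_self _ _)) fun y hy => ?_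
  show F y n = b
  rw [h _ x y hy n (by omega)]
  exact hx

lemma mul_mem_cy {u x y : Cantor} {L : ℕ} (h : y ∈ cy x L) : mul u y ∈ cy (mul u x) L := by
  intro n hn
  refine bz_injective ?_
  have e := fun z => congrArg (PowerSeries.coeff n) (ps_mul u z)
  simp only [ps, PowerSeries.coeff_mk, PowerSeries.coeff_mul] at e
  rw [e y, e x]
  refine Finset.sum_congr rfl fun p hp => ?_
  have hp' : p.1 + p.2 = n := by simpa using hp
  rw [h p.2 (by omega)]

lemma dig_mem_cy {d x y : Cantor} {L : ℕ} (h : y ∈ cy x L) : dig d y ∈ cy (dig d x) L := by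
  intro n hn
  have key : ∀ n L x y, n < L → y ∈ cy x L → (step d)^[n] y 0 = (step d)^[n] x 0 := by
    intro n
    induction n with
    | zero => exact fun L x y hL h => h 0 hL
    | succ n ih =>
      intro L x y hL h
      rw [Function.iterate_succ_apply, Function.iterate_succ_apply]
      refine ih (L - 1) _ _ (by omega) fun i hi => ?_
      simp [step, sh, xr, h 0 (by omega), h (i + 1) (by omega)]
  exact key n L x y hn h

/-- Multiplication by a unit. -/
noncomputable def mulHomeo (u : Cantor) (hu : u 0 = true) : Cantor ≃ₜ Cantor where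
  toFun := mul u
  invFun := dig u
  left_inv a := dig_eq hu (ps_mul u a)
  right_inv a := ps_injective (by rw [ps_mul, ← ps_dig hu])
  continuous_toFun := continuous_of_cy fun _ _ _ => mul_mem_cy
  continuous_invFun := continuous_of_cy fun _ _ _ => dig_mem_cy

/-! ### Computability -/

/-- The functional multiplying the two halves of a join. -/
def Func.mul2 : Func := Func.ofModulus (fun n => 2 * n + 2)
  (fun σ n => Nat.rec false (fun i acc => cond (σ.getD (2 * i) false)
    (cond (σ.getD (2 * (n - i) + 1) false) (!acc) acc) acc) (n + 1))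
  (Primrec.succ.comp (Primrec.succ.comp
    (Primrec.nat_mul.comp (Primrec.const 2) Primrec.id))).to_comp
  (by
    refine (Computable.nat_rec (h := fun (x : List Bool × ℕ) (p : ℕ × Bool) =>
      cond (x.1.getD (2 * p.1) false)
        (cond (x.1.getD (2 * (x.2 - p.1) + 1) false) (!p.2) p.2) p.2)
      (Computable.succ.comp Computable.snd) (Computable.const false) ?_).to₂
    have hl : Primrec fun y : (List Bool × ℕ) × ℕ × Bool => y.1.1 := Primrec.fst.comp Primrec.fst
    have ha := (Primrec.list_getD false).comp hl (Primrec.nat_mul.comp (Primrec.const 2)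
      (Primrec.fst.comp (Primrec.snd (α := List Bool × ℕ) (β := ℕ × Bool))))
    have hb := (Primrec.list_getD false).comp hl (Primrec.succ.comp (Primrec.nat_mul.comp
      (Primrec.const 2) (Primrec.nat_sub.comp (Primrec.snd.comp Primrec.fst)
        (Primrec.fst.comp (Primrec.snd (α := List Bool × ℕ) (β := ℕ × Bool))))))
    have hp : Primrec fun y : (List Bool × ℕ) × ℕ × Bool => y.2.2 :=
      Primrec.snd.comp Primrec.snd
    exact (Primrec.cond ha (Primrec.cond hb (Primrec.not.comp hp) hp) hp).to_comp.to₂)

lemma Func.gives_mul2 (a b : Cantor) : Func.mul2.Gives (J a b) (mul a b) := by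
  refine Func.gives_ofModulus fun n => ?_
  have key : ∀ m, m ≤ n + 1 → (Nat.rec false (fun i acc =>
      cond ((pre (J a b) (2 * n + 2)).getD (2 * i) false)
        (cond ((pre (J a b) (2 * n + 2)).getD (2 * (n - i) + 1) false) (!acc) acc) acc) m : Bool) =
      Nat.rec false (fun i acc => Bool.xor acc (a i && b (n - i))) m := by
    intro m
    induction m with
    | zero => exact fun _ => rfl
    | succ m ih =>
      intro hm
      simp only [ih (by omega)]
      rw [pre_getD _ (by omega), pre_getD _ (by omega), J_even, J_odd]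
      cases a m <;> cases b (n - m) <;> simp
  exact key (n + 1) le_rfl

lemma deg_mul_le {a b : Cantor} {c : SetDegree} (h₁ : deg a ≤ c) (h₂ : deg b ≤ c) :
    deg (mul a b) ≤ c :=
  le_trans (deg_le_iff.2 (Func.red_of_gives (Func.gives_mul2 a b))) (deg_J_le_iff.2 ⟨h₁, h₂⟩)

/-- One step of division on a join. -/
def Func.divStep : Func :=
  ((Func.left.sel (Func.xor2.then Func.shift) (Func.left.then Func.shift)).pair Func.right)

lemma Func.gives_divStep (δ d : Cantor) : Func.divStep.Gives (J δ d) (J (step d δ) d) := by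
  refine Func.gives_pair (Func.gives_sel (Func.gives_left δ d) ?_) (Func.gives_right δ d)
  cases h : δ 0
  · simpa [step, h] using Func.gives_then (Func.gives_left δ d) (Func.gives_shift δ)
  · simpa [step, h] using Func.gives_then (Func.gives_xor2 δ d) (Func.gives_shift (xr δ d))

lemma Func.gives_dig (δ d : Cantor) :
    (Func.divStep.iter Func.left).Gives (J δ d) (dig d δ) := by
  refine Func.gives_iter (fun n => J ((step d)^[n] δ) d) (dig d δ) (fun n => ?_)
    fun n => ⟨_, Func.gives_left _ _, rfl⟩
  rw [Function.iterate_succ_apply']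
  exact Func.gives_divStep _ _

lemma deg_dig_le {d δ : Cantor} {c : SetDegree} (h₁ : deg d ≤ c) (h₂ : deg δ ≤ c) :
    deg (dig d δ) ≤ c :=
  le_trans (deg_le_iff.2 (Func.red_of_gives (Func.gives_dig δ d))) (deg_J_le_iff.2 ⟨h₂, h₁⟩)

lemma deg_drop_le (k : ℕ) (a : Cantor) : deg (drop k a) ≤ deg a :=
  Func.red_of_gives (Func.gives_reidx (g := fun n => n + k)
    (hg := (Primrec.nat_add.comp Primrec.id (Primrec.const k)).to_comp) a)

/-- If `U` is a unit and `o₂ = U * o₁` with `o₁ ≠ 0`, then `U` is computable from `o₁` and `o₂`. -/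
lemma deg_le_of_mul {U o : Cantor} {c : SetDegree} (hne : ∃ n, o n = true) (h₁ : deg o ≤ c)
    (h₂ : deg (mul U o) ≤ c) : deg U ≤ c := by
  have hv : ∀ i < Nat.find hne, o i = false := fun i hi => by
    simpa using Nat.find_min hne hi
  have h0 : drop (Nat.find hne) o 0 = true := by simpa [drop] using Nat.find_spec hne
  have hU : dig (drop (Nat.find hne) o) (drop (Nat.find hne) (mul U o)) = U :=
    dig_eq h0 (by rw [drop_mul U hv, ps_mul, mul_comm])
  rw [← hU]
  exact deg_dig_le ((deg_drop_le _ _).trans h₁) ((deg_drop_le _ _).trans h₂)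

end Vale.Agent.P327
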