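import Vale.Agent.P327.Anchor

/-!
# Maps computable from a representative of the image, on a comeagre set
-/

namespace Vale.Agent.P327

open Filter Set Topology

variable {π : SetDegree ≃o SetDegree} {f : Cantor → Cantor} {B B' : Cantor}
  {T T₁ T₀ : Cantor → Cantor}

/-- A member of the image of the degree of `B`. -/
noncomputable def img (π : SetDegree ≃o SetDegree) (B : Cantor) : Cantor := rep (π (deg B))

lemma deg_img (π : SetDegree ≃o SetDegree) (B : Cantor) : deg (img π B) = π (deg B) := deg_rep _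

/-- `T X` is uniformly computable from `f X` and the image of `B`, for comeagrely many `X`. -/
def Sim (π : SetDegree ≃o SetDegree) (f : Cantor → Cantor) (B : Cantor) (T : Cantor → Cantor) :
    Prop :=
  ∃ Ψ : Func, ∀ᶠ X in residual Cantor, Ψ.Gives (J (f X) (img π B)) (T X)

lemma Sim.self : Sim π f B f :=
  ⟨Func.left, Eventually.of_forall fun _ => Func.gives_left _ _⟩

lemma Sim.const {q : Cantor} (h : deg q ≤ π (deg B)) : Sim π f B fun _ => q := by
  obtain ⟨Φ, hΦ⟩ := exists_gives_of_le (A := q) (B := img π B) (by rwa [deg_img])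
  exact ⟨Func.right.then Φ,
    Eventually.of_forall fun _ => Func.gives_then (Func.gives_right _ _) hΦ⟩

lemma Sim.const_catS (s : List Bool) : Sim π f B fun _ => catS s zer :=
  ⟨Func.zero.then (Func.cat s),
    Eventually.of_forall fun _ => Func.gives_then (Func.gives_zero _) (Func.gives_cat _ _)⟩

lemma Sim.mono (h : Sim π f B T) (hB : deg B ≤ deg B') : Sim π f B' T := by
  obtain ⟨Ψ, hΨ⟩ := h
  obtain ⟨c, hc⟩ := exists_gives_of_le (A := img π B) (B := img π B') (by
    rw [deg_img, deg_img]; exact π.monotone hB)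
  exact ⟨(Func.left.pair (Func.right.then c)).then Ψ, hΨ.mono fun X hX => Func.gives_then
    (Func.gives_pair (Func.gives_left _ _) (Func.gives_then (Func.gives_right _ _) hc)) hX⟩

lemma Sim.congr (h : Sim π f B T) (e : ∀ᶠ X in residual Cantor, T X = T₁ X) :
    Sim π f B T₁ := by
  obtain ⟨Ψ, hΨ⟩ := h
  exact ⟨Ψ, (hΨ.and e).mono fun X hX => hX.2 ▸ hX.1⟩

lemma Sim.map (h : Sim π f B T) {Φ : Func}
    (hΦ : ∀ᶠ X in residual Cantor, Φ.Gives (T X) (T₁ X)) : Sim π f B T₁ := by
  obtain ⟨Ψ, hΨ⟩ := h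
  exact ⟨Ψ.then Φ, (hΨ.and hΦ).mono fun X hX => Func.gives_then hX.1 hX.2⟩

lemma Sim.pair (h₁ : Sim π f B T₁) (h₀ : Sim π f B T₀) :
    Sim π f B fun X => J (T₁ X) (T₀ X) := by
  obtain ⟨Ψ₁, h₁⟩ := h₁
  obtain ⟨Ψ₀, h₀⟩ := h₀
  exact ⟨Ψ₁.pair Ψ₀, (h₁.and h₀).mono fun X hX => Func.gives_pair hX.1 hX.2⟩

lemma Sim.ite (hb : Sim π f B T) (h₁ : Sim π f B T₁) (h₀ : Sim π f B T₀) :
    Sim π f B fun X => cond (T X 0) (T₁ X) (T₀ X) := by
  obtain ⟨Ψ, hΨ⟩ := hb
  obtain ⟨Ψ₁, h₁⟩ := h₁
  obtain ⟨Ψ₀, h₀⟩ := h₀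
  refine ⟨Ψ.sel Ψ₁ Ψ₀, ((hΨ.and h₁).and h₀).mono fun X hX => Func.gives_sel hX.1.1 ?_⟩
  cases hb : T X 0
  · simpa only [hb, Bool.cond_false] using hX.2
  · simpa only [hb, Bool.cond_true] using hX.1.2

/-- Replace the bit `N` of `p` by `b`. -/
def setBit (p : Cantor) (N : ℕ) (b : Bool) : Cantor := fun n => cond (decide (n = N)) b (p n)

lemma Sim.cases (N : ℕ) (hbit : ∀ i < N, Sim π f B fun X _ => X i) :
    ∀ H : Cantor → Cantor → Cantor, (∀ p q, q ∈ cy p N → H q = H p) →
      (∀ p, Sim π f B (H p)) → Sim π f B fun X => H X X := by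
  induction N with
  | zero =>
    intro H hH hS
    exact (hS zer).congr (Eventually.of_forall fun X => by rw [hH zer X fun i hi => absurd hi (by omega)])
  | succ N ih =>
    intro H hH hS
    have hb : ∀ b, Sim π f B fun X => H (setBit X N b) X := fun b =>
      ih (fun i hi => hbit i (by omega)) (fun p => H (setBit p N b))
        (fun p q hq => hH _ _ fun i hi => by
          by_cases h : i = N
          · simp [setBit, h]
          · simp [setBit, h, hq i (by omega)])
        fun p => hS _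
    refine ((hbit N (by omega)).ite (hb true) (hb false)).congr (Eventually.of_forall fun X => ?_)
    cases hX : X N
    all_goals
      simp only [Bool.cond_true, Bool.cond_false]
      rw [hH X]
      intro i _
      by_cases h : i = N <;> simp [setBit, h, hX]

lemma Sim.comp {G : Cantor → Cantor} (hG : Tendsto G (residual Cantor) (residual Cantor))
    (hf : Sim π f B fun X => f (G X)) (h : Sim π f B T) : Sim π f B fun X => T (G X) := by
  obtain ⟨Ψg, hg⟩ := hf
  obtain ⟨Ψ, hΨ⟩ := h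
  exact ⟨(Ψg.pair Func.right).then Ψ, (hg.and (hG.eventually hΨ)).mono fun X hX =>
    Func.gives_then (Func.gives_pair hX.1 (Func.gives_right _ _)) hX.2⟩

end Vale.Agent.P327
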